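import Mathlib
import Vale.Agent.P074.PrekopaLeindler

/-! The Brunn–Minkowski inequality for convex bodies containing the origin. -/

namespace Vale.P254

open MeasureTheory Set Filter Topology
open scoped ENNReal Pointwise

variable {k : ℕ}

/-- Midpoint form of Brunn–Minkowski. -/
theorem volume_mul_le_sq {C D E : Set (Fin k → ℝ)} (hC : MeasurableSet C) (hD : MeasurableSet D)
    (hE : MeasurableSet E) (h : ∀ x ∈ C, ∀ y ∈ D, (1 / 2 : ℝ) • (x + y) ∈ E) :
    volume C * volume D ≤ volume E ^ 2 := by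
  have key := Vale.Agent.P074.pl_pi k (C.indicator 1) (D.indicator 1) (E.indicator 1)
    (measurable_one.indicator hC) (measurable_one.indicator hD) (measurable_one.indicator hE)
    fun x y => by
      by_cases hx : x ∈ C
      · by_cases hy : y ∈ D
        · have hxy := h x hx y hy
          rw [indicator_of_mem hx, indicator_of_mem hy, indicator_of_mem hxy]
          simp
        · simp [indicator_of_notMem hy]
      · simp [indicator_of_notMem hx]
  simpa [lintegral_indicator_one, hC, hD, hE] using key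

/-- The convex combination of two sets. -/
def mix (C D : Set (Fin k → ℝ)) (θ : ℝ) : Set (Fin k → ℝ) := (1 - θ) • C + θ • D

theorem isCompact_mix {C D : Set (Fin k → ℝ)} (hC : IsCompact C) (hD : IsCompact D) (θ : ℝ) :
    IsCompact (mix C D θ) := (hC.smul _).add (hD.smul _)

theorem mix_mid {C D : Set (Fin k → ℝ)} (hC : Convex ℝ C) (hD : Convex ℝ D) {p q : ℝ}
    (hp : p ∈ Icc (0 : ℝ) 1) (hq : q ∈ Icc (0 : ℝ) 1) :
    ∀ x ∈ mix C D p, ∀ y ∈ mix C D q, (1 / 2 : ℝ) • (x + y) ∈ mix C D ((p + q) / 2) := by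
  intro x hx y hy
  obtain ⟨_, ⟨a, ha, rfl⟩, _, ⟨b, hb, rfl⟩, rfl⟩ := hx
  obtain ⟨_, ⟨c, hc, rfl⟩, _, ⟨d, hd, rfl⟩, rfl⟩ := hy
  have e : ∀ (S : Set (Fin k → ℝ)), Convex ℝ S → ∀ u ∈ S, ∀ v ∈ S, ∀ r s : ℝ, 0 ≤ r → 0 ≤ s →
      r • u + s • v ∈ (r + s) • S := fun S hS u hu v hv r s hr hs => by
    rw [hS.add_smul hr hs]
    exact add_mem_add (smul_mem_smul_set hu) (smul_mem_smul_set hv)
  have h1 := e C hC a ha c hc ((1 - p) / 2) ((1 - q) / 2) (by linarith [hp.2]) (by linarith [hq.2])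
  have h2 := e D hD b hb d hd (p / 2) (q / 2) (by linarith [hp.1]) (by linarith [hq.1])
  rw [show (1 - p) / 2 + (1 - q) / 2 = 1 - (p + q) / 2 by ring] at h1
  rw [show p / 2 + q / 2 = (p + q) / 2 by ring] at h2
  refine ⟨_, h1, _, h2, ?_⟩
  simp only [smul_add, smul_smul]
  ext i
  simp only [Pi.add_apply, Pi.smul_apply, smul_eq_mul]
  ring

/-- Log-concavity of the volume along dyadic combinations of two bodies of volume at least one. -/
theorem one_le_volume_mix_dyadic {C D : Set (Fin k → ℝ)} (hCc : IsCompact C) (hDc : IsCompact D)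
    (hC : Convex ℝ C) (hD : Convex ℝ D) (hCne : C.Nonempty) (hDne : D.Nonempty)
    (hC1 : 1 ≤ volume C) (hD1 : 1 ≤ volume D) :
    ∀ (m j : ℕ), j ≤ 2 ^ m → 1 ≤ volume (mix C D ((j : ℝ) / 2 ^ m)) := by
  intro m
  induction m with
  | zero =>
    intro j hj
    rw [pow_zero] at hj
    interval_cases j
    · simpa [mix, zero_smul_set hDne] using hC1
    · simpa [mix, zero_smul_set hCne] using hD1
  | succ m ih =>
    intro j hj
    have h2 : (2 : ℝ) ^ (m + 1) = 2 ^ m * 2 := pow_succ _ _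
    rw [pow_succ] at hj
    obtain ⟨i, rfl | rfl⟩ : ∃ i, j = i + i ∨ j = i + (i + 1) :=
      ⟨j / 2, by omega⟩
    · have e : ((i + i : ℕ) : ℝ) / 2 ^ (m + 1) = (i : ℝ) / 2 ^ m := by
        rw [h2]; push_cast; field_simp; ring
      rw [e]
      exact ih i (by omega)
    · have e : ((i + (i + 1) : ℕ) : ℝ) / 2 ^ (m + 1)
          = ((i : ℝ) / 2 ^ m + ((i + 1 : ℕ) : ℝ) / 2 ^ m) / 2 := by
        rw [h2]; push_cast; field_simp
      rw [e]
      have hr : ∀ l : ℕ, l ≤ 2 ^ m → (l : ℝ) / 2 ^ m ∈ Icc (0 : ℝ) 1 := fun l hl =>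
        ⟨by positivity, by rw [div_le_one (by positivity)]; exact_mod_cast hl⟩
      have h := volume_mul_le_sq (isCompact_mix hCc hDc _).measurableSet
        (isCompact_mix hCc hDc _).measurableSet (isCompact_mix hCc hDc _).measurableSet
        (mix_mid hC hD (hr i (by omega)) (hr (i + 1) (by omega)))
      have h1 := le_trans (one_le_mul (ih i (by omega)) (ih (i + 1) (by omega))) h
      by_contra hlt
      rw [not_le] at hlt
      exact absurd h1 (not_le.2 (pow_lt_one₀ bot_le hlt two_ne_zero))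

/-- For two bodies of volume at least one, every convex combination has volume at least one. -/
theorem one_le_volume_mix {C D : Set (Fin k → ℝ)} (hCc : IsCompact C) (hDc : IsCompact D)
    (hC : Convex ℝ C) (hD : Convex ℝ D) (h0C : (0 : Fin k → ℝ) ∈ C) (h0D : (0 : Fin k → ℝ) ∈ D)
    (hC1 : 1 ≤ volume C) (hD1 : 1 ≤ volume D) {θ : ℝ} (hθ : θ ∈ Ioc (0 : ℝ) 1) :
    1 ≤ volume (mix C D θ) := by
  set r : ℕ → ℝ := fun m => (⌈θ * 2 ^ m⌉₊ : ℝ) / 2 ^ m with hr
  have hrθ : ∀ m, θ ≤ r m := fun m => by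
    rw [hr, le_div_iff₀ (by positivity)]; exact Nat.le_ceil _
  have hr1 : ∀ m, ⌈θ * 2 ^ m⌉₊ ≤ 2 ^ m := fun m => by
    refine Nat.ceil_le.2 ?_
    have := hθ.2
    have h2 : (0 : ℝ) ≤ 2 ^ m := by positivity
    push_cast
    nlinarith
  have hb : ∀ m, ENNReal.ofReal ((θ / r m) ^ k) ≤ volume (mix C D θ) := by
    intro m
    have hr0 : 0 < r m := hθ.1.trans_le (hrθ m)
    have hle : θ / r m ≤ 1 := (div_le_one hr0).2 (hrθ m)
    have hsub : (θ / r m) • mix C D (r m) ⊆ mix C D θ := by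
      rintro _ ⟨_, ⟨_, ⟨a, ha, rfl⟩, _, ⟨b, hb, rfl⟩, rfl⟩, rfl⟩
      have hrm : r m ≤ 1 := by
        rw [hr, div_le_one (by positivity)]
        exact_mod_cast hr1 m
      rcases eq_or_lt_of_le hθ.2 with h1 | h1
      · have : r m = 1 := le_antisymm hrm (h1 ▸ hrθ m)
        refine ⟨_, smul_mem_smul_set ha, _, smul_mem_smul_set hb, ?_⟩
        simp [this, h1]
      · have hfac : θ / r m * (1 - r m) / (1 - θ) ∈ Icc (0 : ℝ) 1 := by
          have hnum : 0 ≤ θ / r m * (1 - r m) :=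
            mul_nonneg (div_nonneg hθ.1.le hr0.le) (by linarith)
          refine ⟨div_nonneg hnum (by linarith), (div_le_one (by linarith)).2 ?_⟩
          calc θ / r m * (1 - r m) ≤ 1 * (1 - r m) :=
                mul_le_mul_of_nonneg_right hle (by linarith)
            _ ≤ 1 - θ := by linarith [hrθ m]
        refine ⟨_, smul_mem_smul_set (hC.smul_mem_of_zero_mem h0C ha hfac), _,
          smul_mem_smul_set hb, ?_⟩
        simp only [smul_add, smul_smul]
        rw [mul_div_cancel₀ _ (by linarith : (1 - θ) ≠ 0), div_mul_cancel₀ _ hr0.ne']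
    refine le_trans ?_ (measure_mono hsub)
    rw [Measure.addHaar_smul_of_nonneg volume (div_nonneg hθ.1.le hr0.le)]
    simp only [Module.finrank_pi, Fintype.card_fin]
    exact le_mul_of_one_le_right bot_le (one_le_volume_mix_dyadic hCc hDc hC hD ⟨0, h0C⟩ ⟨0, h0D⟩
      hC1 hD1 m _ (hr1 m))
  have hlim : Tendsto r atTop (𝓝 θ) := by
    have h1 : Tendsto (fun m : ℕ => θ + (1 / 2 : ℝ) ^ m) atTop (𝓝 θ) := by
      simpa using tendsto_const_nhds.add
        (tendsto_pow_atTop_nhds_zero_of_lt_one (by norm_num : (0 : ℝ) ≤ 1 / 2) (by norm_num))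
    refine tendsto_of_tendsto_of_tendsto_of_le_of_le tendsto_const_nhds h1 hrθ fun m => ?_
    rw [hr, div_pow, one_pow]
    simp only
    rw [div_le_iff₀ (by positivity), add_mul, one_div_mul_cancel (by positivity)]
    exact (Nat.ceil_lt_add_one (mul_nonneg hθ.1.le (by positivity))).le
  have hlim' : Tendsto (fun m => ENNReal.ofReal ((θ / r m) ^ k)) atTop (𝓝 1) := by
    have := ENNReal.tendsto_ofReal (((tendsto_const_nhds (x := θ)).div hlim hθ.1.ne').pow k)
    simpa [div_self hθ.1.ne'] using this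
  exact le_of_tendsto' hlim' hb

/-- The Brunn–Minkowski inequality for convex bodies containing the origin. -/
theorem brunn_minkowski {A B G : Set (Fin k → ℝ)} (hAc : IsCompact A) (hBc : IsCompact B)
    (hA : Convex ℝ A) (hB : Convex ℝ B) (h0A : (0 : Fin k → ℝ) ∈ A) (h0B : (0 : Fin k → ℝ) ∈ B)
    (hGc : IsCompact G) {c d u v : ℝ} (hc : 0 < c) (hd : 0 < d) (hu : 0 ≤ u) (hv : 0 ≤ v)
    (huv : 0 < u + v) (hcA : c ^ k ≤ volume.real A) (hdB : d ^ k ≤ volume.real B)
    (hG : ∀ x ∈ A, ∀ y ∈ B, u • x + v • y ∈ G) :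
    (u * c + v * d) ^ k ≤ volume.real G := by
  have hs : 0 < u * c + v * d := by
    rcases hu.eq_or_lt with rfl | hu'
    · have : 0 < v := by linarith
      positivity
    · positivity
  set s := u * c + v * d with hsdef
  have hvol : ∀ {S : Set (Fin k → ℝ)}, IsCompact S → ∀ {z : ℝ}, 0 < z → z ^ k ≤ volume.real S →
      1 ≤ volume (z⁻¹ • S) := by
    intro S hS z hz hzS
    rw [Measure.addHaar_smul_of_nonneg volume (inv_nonneg.2 hz.le)]
    simp only [Module.finrank_pi, Fintype.card_fin]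
    rw [inv_pow, ENNReal.ofReal_inv_of_pos (by positivity), mul_comm, ← div_eq_mul_inv,
      ENNReal.le_div_iff_mul_le (Or.inl (by simp [pow_pos hz k])) (Or.inl ENNReal.ofReal_ne_top),
      one_mul]
    exact ENNReal.ofReal_le_of_le_toReal hzS
  have hmem : ∀ x ∈ mix (c⁻¹ • A) (d⁻¹ • B) (v * d / s), x ∈ s⁻¹ • G := by
    rintro _ ⟨_, ⟨_, ⟨a, ha, rfl⟩, rfl⟩, _, ⟨_, ⟨b, hb, rfl⟩, rfl⟩, rfl⟩
    refine ⟨_, hG a ha b hb, ?_⟩
    simp only [smul_add, smul_smul]
    have hc' : u * c / s = 1 - v * d / s := by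
      rw [eq_sub_iff_add_eq, ← add_div, ← hsdef, div_self hs.ne']
    congr 2
    · rw [← hc']; field_simp
    · field_simp
  have h1 : 1 ≤ volume (s⁻¹ • G) := by
    rcases hv.eq_or_lt with h0 | hv'
    · refine (hvol hAc hc hcA).trans (measure_mono fun x hx => ?_)
      obtain ⟨a, ha, rfl⟩ := hx
      refine ⟨_, hG a ha 0 h0B, ?_⟩
      subst h0
      have hu0 : u ≠ 0 := by linarith
      rw [hsdef]
      simp [smul_smul]
      field_simp
    · refine le_trans ?_ (measure_mono hmem)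
      refine one_le_volume_mix (hAc.smul _) (hBc.smul _) (hA.smul _) (hB.smul _)
        ⟨0, h0A, smul_zero _⟩ ⟨0, h0B, smul_zero _⟩ (hvol hAc hc hcA) (hvol hBc hd hdB)
        ⟨by positivity, (div_le_one hs).2 (le_add_of_nonneg_left (by positivity))⟩
  rw [Measure.addHaar_smul_of_nonneg volume (inv_nonneg.2 hs.le)] at h1
  simp only [Module.finrank_pi, Fintype.card_fin] at h1
  have h2 := ENNReal.toReal_mono
    (ENNReal.mul_ne_top ENNReal.ofReal_ne_top hGc.measure_lt_top.ne) h1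
  rw [ENNReal.toReal_one, ENNReal.toReal_mul, ENNReal.toReal_ofReal (by positivity), inv_pow,
    ← div_le_iff₀' (by positivity), one_div, inv_inv] at h2
  exact h2

end Vale.P254
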