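import Mathlib

/-! Integral inequalities for slice profiles: non-increasing functions on the half-line, of
bounded support, whose `k`-th root is concave. -/

namespace Vale.P254

open MeasureTheory Set Filter

/-- A slice profile of order `k`. -/
structure Profile (k : ℕ) (S : ℝ → ℝ) (R : ℝ) : Prop where
  meas : Measurable S
  nonneg : ∀ t, 0 ≤ S t
  anti : AntitoneOn S (Ici 0)
  supp : ∀ t, R < t → S t = 0
  dim_zero : k = 0 → ∀ t, 0 < S t → S t = 1
  concave : ∀ t s r : ℝ, 0 ≤ t → t ≤ s → 0 ≤ r → r ≤ 1 → ∀ c d : ℝ, 0 < c → 0 < d →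
    c ^ k ≤ S t → d ^ k ≤ S s → ((1 - r) * c + r * d) ^ k ≤ S ((1 - r) * t + r * s)

/-- The integral beyond a level. -/
noncomputable def tail (S : ℝ → ℝ) (t : ℝ) : ℝ := ∫ s in Ioi (max t 0), S s

variable {k : ℕ} {S : ℝ → ℝ} {R : ℝ}

theorem tail_of_nonneg {t : ℝ} (ht : 0 ≤ t) : tail S t = ∫ s in Ioi t, S s := by
  rw [tail, max_eq_left ht]

theorem integrableOn_of_bounded {f : ℝ → ℝ} {R C : ℝ} (hf : Measurable f)
    (hb : ∀ t, 0 < t → t ≤ R → |f t| ≤ C) (hs : ∀ t, R < t → f t = 0) :
    IntegrableOn f (Ioi 0) := by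
  have h1 : IntegrableOn f (Ioc 0 R) :=
    IntegrableOn.of_bound measure_Ioc_lt_top hf.aestronglyMeasurable C
      (ae_restrict_of_forall_mem measurableSet_Ioc fun t ht => hb t ht.1 ht.2)
  refine h1.of_forall_sdiff_eq_zero measurableSet_Ioi fun t ht => ?_
  exact hs t (lt_of_not_ge fun h => ht.2 ⟨ht.1, h⟩)

theorem Profile.integrableOn (h : Profile k S R) : IntegrableOn S (Ioi 0) :=
  integrableOn_of_bounded (R := R) (C := S 0) h.meas (fun t ht _ => by
    rw [abs_of_nonneg (h.nonneg t)]
    exact h.anti self_mem_Ici ht.le ht.le) h.supp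

theorem Profile.integrableOn' (h : Profile k S R) {t : ℝ} (ht : 0 ≤ t) :
    IntegrableOn S (Ioi t) :=
  h.integrableOn.mono_set (Ioi_subset_Ioi ht)

theorem Profile.tail_nonneg (h : Profile k S R) (t : ℝ) : 0 ≤ tail S t :=
  setIntegral_nonneg measurableSet_Ioi fun s _ => h.nonneg s

theorem Profile.tail_antitone (h : Profile k S R) : Antitone (tail S) := fun a _ hab =>
  setIntegral_mono_set (h.integrableOn' (le_max_right a 0)) (Eventually.of_forall h.nonneg)
    (Ioi_subset_Ioi (max_le_max hab le_rfl)).eventuallyLE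

theorem Profile.tail_le (h : Profile k S R) (t : ℝ) : tail S t ≤ ∫ s in Ioi 0, S s :=
  setIntegral_mono_set h.integrableOn (Eventually.of_forall h.nonneg)
    (Ioi_subset_Ioi (le_max_right t 0)).eventuallyLE

theorem Profile.tail_supp (h : Profile k S R) (t : ℝ) (ht : R < t) : tail S t = 0 :=
  setIntegral_eq_zero_of_forall_eq_zero fun s hs =>
    h.supp s (ht.trans_le (le_max_left t 0) |>.trans hs)

/-- The tail at an earlier level exceeds the tail at a later one by the middle part. -/
theorem Profile.tail_sub (h : Profile k S R) {t t' : ℝ} (ht : 0 ≤ t) (htt : t ≤ t') :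
    tail S t - tail S t' = ∫ s in t..t', S s := by
  rw [tail_of_nonneg ht, tail_of_nonneg (ht.trans htt), sub_eq_iff_eq_add,
    intervalIntegral.integral_of_le htt, ← setIntegral_union Ioc_disjoint_Ioi_same measurableSet_Ioi
      ((h.integrableOn' ht).mono_set Ioc_subset_Ioi_self) (h.integrableOn' (ht.trans htt)),
    Ioc_union_Ioi_eq_Ioi htt]

/-- The hazard of a profile falls with slope at least `1 / (k + 1)`. -/
theorem Profile.hazard (h : Profile k S R) {t t' : ℝ} (ht : 0 ≤ t) (htt : t ≤ t') :
    (t' - t) * S t * S t' / (k + 1) ≤ tail S t * S t' - tail S t' * S t := by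
  have ht' : 0 ≤ t' := ht.trans htt
  have hmono : S t' ≤ S t := h.anti ht ht' htt
  have hn : (0 : ℝ) < k + 1 := by positivity
  rcases (h.nonneg t').eq_or_lt with h0 | hpos
  · have hT : tail S t' = 0 := by
      rw [tail_of_nonneg ht']
      exact setIntegral_eq_zero_of_forall_eq_zero fun s hs =>
        le_antisymm (h0 ▸ h.anti ht' (ht'.trans hs.le) hs.le) (h.nonneg s)
    rw [hT, ← h0]
    simp
  have hSt : 0 < S t := hpos.trans_le hmono
  have hint : IntervalIntegrable S volume t t' :=
    AntitoneOn.intervalIntegrable (h.anti.mono fun z hz => ht.trans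
      (by rw [uIcc_of_le htt] at hz; exact hz.1))
  rcases hmono.eq_or_lt with he | hlt
  · have h1 : (t' - t) * S t' ≤ ∫ s in t..t', S s := by
      have := intervalIntegral.integral_mono_on htt intervalIntegrable_const hint
        (fun s hs => h.anti (ht.trans hs.1) ht' hs.2)
      simpa using this
    rw [← he, ← sub_mul, h.tail_sub ht htt, div_le_iff₀ hn]
    have h2 : (t' - t) * S t' * S t' ≤ (∫ s in t..t', S s) * S t' :=
      mul_le_mul_of_nonneg_right h1 hpos.le
    have h3 : 0 ≤ (∫ s in t..t', S s) * S t' * k := by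
      have := intervalIntegral.integral_nonneg (μ := volume) htt fun s _ => h.nonneg s
      positivity
    linarith
  -- now `S t' < S t`, so `k ≠ 0`
  have hk : k ≠ 0 := fun h0 => by
    rw [h.dim_zero h0 t hSt, h.dim_zero h0 t' hpos] at hlt
    exact lt_irrefl _ hlt
  set a := S t' ^ (1 / (k : ℝ)) with ha
  set c := S t ^ (1 / (k : ℝ)) with hc
  have ha0 : 0 < a := Real.rpow_pos_of_pos hpos _
  have hc0 : 0 < c := Real.rpow_pos_of_pos hSt _
  have hak : a ^ k = S t' := by
    rw [ha, one_div, Real.rpow_inv_natCast_pow hpos.le hk]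
  have hck : c ^ k = S t := by
    rw [hc, one_div, Real.rpow_inv_natCast_pow hSt.le hk]
  have hac : a < c := Real.rpow_lt_rpow hpos.le hlt (by positivity)
  set α := c / a with hα
  have hα1 : 1 < α := (one_lt_div ha0).2 hac
  have hαa : α * a = c := div_mul_cancel₀ c ha0.ne'
  have hαk : S t = α ^ k * S t' := by rw [← hck, ← hαa, mul_pow, hak]
  set T := tail S t with hT
  set T' := tail S t' with hT'
  -- first estimate
  have e1 : α ^ (k + 1) * T' ≤ T := by
    have hpt : ∀ s ∈ Ioi t', α ^ k * S s ≤ S (t + α * (s - t')) := by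
      intro s hs
      have hst : t' < s := hs
      rcases (h.nonneg s).eq_or_lt with hs0 | hs0
      · rw [← hs0, mul_zero]; exact h.nonneg _
      set d := S s ^ (1 / (k : ℝ)) with hd
      have hd0 : 0 < d := Real.rpow_pos_of_pos hs0 _
      have hdk : d ^ k = S s := by rw [hd, one_div, Real.rpow_inv_natCast_pow hs0.le hk]
      have hts : 0 < s - t := by linarith
      set r := (t' - t) / (s - t) with hr
      have hr0 : 0 ≤ r := div_nonneg (by linarith) hts.le
      have hr1 : r ≤ 1 := (div_le_one hts).2 (by linarith)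
      have hmid := h.concave t s r ht (by linarith) hr0 hr1 c d hc0 hd0 hck.le hdk.le
      rw [show (1 - r) * t + r * s = t + r * (s - t) by ring, hr, div_mul_cancel₀ _ hts.ne',
        add_sub_cancel, ← hr, ← hak] at hmid
      have hlin : (1 - r) * c + r * d ≤ a := le_of_pow_le_pow_left₀ hk ha0.le hmid
      have hrs : r * (s - t) = t' - t := div_mul_cancel₀ _ hts.ne'
      -- `a (s - t) ≥ (s - t') c + (t' - t) d`
      have hlin' : (s - t') * c + (t' - t) * d ≤ a * (s - t) := by
        have := mul_le_mul_of_nonneg_right hlin hts.le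
        linear_combination this + (c - d) * hrs
      set w := α * (s - t') / (s - t) with hw
      have hw0 : 0 ≤ w := div_nonneg (mul_nonneg (by linarith) (by linarith)) hts.le
      have hw1 : w ≤ 1 := by
        rw [hw, div_le_one hts, hα, div_mul_eq_mul_div, div_le_iff₀ ha0]
        linarith [mul_nonneg (sub_nonneg.2 htt) hd0.le]
      have hfin := h.concave t s w ht (by linarith) hw0 hw1 c d hc0 hd0 hck.le hdk.le
      rw [show (1 - w) * t + w * s = t + w * (s - t) by ring, hw,
        div_mul_cancel₀ _ hts.ne', ← hw] at hfin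
      refine le_trans ?_ hfin
      rw [← hdk, ← mul_pow]
      refine pow_le_pow_left₀ (mul_nonneg (by linarith) hd0.le) ?_ k
      rw [← mul_le_mul_iff_of_pos_right hts, hw]
      have e : ((1 - α * (s - t') / (s - t)) * c + α * (s - t') / (s - t) * d) * (s - t)
          = (s - t) * c - α * (s - t') * c + α * (s - t') * d := by field_simp
      rw [e]
      have := mul_le_mul_of_nonneg_left hlin' (by linarith : (0 : ℝ) ≤ α)
      linear_combination this + (s - t) * hαa
    have hcomp : ∫ s in Ioi t', S (t + α * (s - t')) = α⁻¹ * T := by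
      have e := integral_comp_mul_left_Ioi (fun z => S (z + (t - α * t'))) t'
        (show 0 < α by linarith)
      rw [hT, tail_of_nonneg ht]
      have e' : ∫ z in Ioi (α * t'), S (z + (t - α * t')) = ∫ z in Ioi t, S z := by
        have := (measurePreserving_add_right volume (t - α * t')).setIntegral_preimage_emb
          (measurableEmbedding_addRight _) S (Ioi t)
        rw [← this]
        congr 1
        congr 1
        ext z
        simp only [mem_Ioi, mem_preimage]
        constructor <;> intro <;> linarith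
      rw [smul_eq_mul, e'] at e
      rw [← e]
      exact setIntegral_congr_fun measurableSet_Ioi fun z _ => by ring_nf
    have hi : IntegrableOn (fun s => S (t + α * (s - t'))) (Ioi t') := by
      refine (integrableOn_of_bounded (R := max t' (t' + (R - t) / α)) (C := S 0)
        (h.meas.comp (by fun_prop : Measurable fun z => t + α * (z - t')) |>.indicator
          (measurableSet_Ioi (a := t'))) (fun z _ _ => ?_) (fun z hz => ?_) |>.mono_set
            (Ioi_subset_Ioi ht')).congr_fun (fun z hz => indicator_of_mem hz _) measurableSet_Ioi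
      · by_cases hz : z ∈ Ioi t'
        · rw [indicator_of_mem hz, Function.comp_apply, abs_of_nonneg (h.nonneg _)]
          have h0 : 0 ≤ α * (z - t') := mul_nonneg (by linarith) (by linarith [mem_Ioi.1 hz])
          exact h.anti self_mem_Ici (mem_Ici.2 (by linarith)) (by linarith)
        · rw [indicator_of_notMem hz, abs_zero]; exact h.nonneg 0
      · have hz' : t' < z := lt_of_le_of_lt (le_max_left _ _) hz
        rw [indicator_of_mem (mem_Ioi.2 hz'), Function.comp_apply]
        refine h.supp _ ?_
        have h1 : (R - t) / α < z - t' := by linarith [le_max_right t' (t' + (R - t) / α)]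
        rw [div_lt_iff₀ (by linarith : (0 : ℝ) < α)] at h1
        linarith
    have hm := setIntegral_mono_on ((h.integrableOn' ht').const_mul (α ^ k)) hi measurableSet_Ioi hpt
    rw [integral_const_mul, hcomp, ← tail_of_nonneg ht', ← hT'] at hm
    have := mul_le_mul_of_nonneg_left hm (by linarith : (0 : ℝ) ≤ α)
    rw [← mul_assoc, ← mul_assoc, mul_inv_cancel₀ (by linarith), one_mul] at this
    rwa [pow_succ']
  -- second estimate
  have e2 : (t' - t) * S t' * (α ^ (k + 1) - 1) / (k + 1) ≤ (T - T') * (α - 1) := by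
    have hpt : ∀ u ∈ Icc (0 : ℝ) 1, (a + (c - a) * u) ^ k ≤ S (t' + (t - t') * u) := fun u hu => by
      have := h.concave t t' (1 - u) ht htt (by linarith [hu.2]) (by linarith [hu.1]) c a hc0 ha0
        hck.le hak.le
      convert this using 2 <;> ring
    have hi1 : IntervalIntegrable (fun u => (a + (c - a) * u) ^ k) volume 0 1 :=
      (Continuous.intervalIntegrable (by fun_prop) _ _)
    have hi2 : IntervalIntegrable (fun u => S (t' + (t - t') * u)) volume 0 1 := by
      refine MonotoneOn.intervalIntegrable ?_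
      rw [uIcc_of_le zero_le_one]
      intro u hu v hv huv
      exact h.anti (mem_Ici.2 (by nlinarith [hv.1, hv.2])) (mem_Ici.2 (by nlinarith [hu.1, hu.2]))
        (by nlinarith)
    have hm := intervalIntegral.integral_mono_on zero_le_one hi1 hi2 hpt
    have hl : (c - a) * ∫ u in (0 : ℝ)..1, (a + (c - a) * u) ^ k
        = (c ^ (k + 1) - a ^ (k + 1)) / (k + 1) := by
      have e := intervalIntegral.mul_integral_comp_add_mul (f := fun z : ℝ => z ^ k) (a := 0)
        (b := 1) (c - a) a
      rw [e]
      simp [integral_pow]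
    have hr : (t - t') * ∫ u in (0 : ℝ)..1, S (t' + (t - t') * u) = -(T - T') := by
      rw [intervalIntegral.mul_integral_comp_add_mul (f := S), mul_zero, add_zero, mul_one,
        add_sub_cancel, intervalIntegral.integral_symm, hT, hT', h.tail_sub ht htt]
    have h1 : (t' - t) * ∫ u in (0 : ℝ)..1, (a + (c - a) * u) ^ k ≤ T - T' := by
      refine (mul_le_mul_of_nonneg_left hm (by linarith)).trans_eq ?_
      linarith
    have h2 := mul_le_mul_of_nonneg_left h1 (show 0 ≤ c - a by linarith)
    rw [mul_left_comm, hl] at h2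
    rw [show (c ^ (k + 1) - a ^ (k + 1)) = S t' * a * (α ^ (k + 1) - 1) by
      rw [← hαa, ← hak]; ring, show c - a = a * (α - 1) by rw [← hαa]; ring] at h2
    rw [← mul_le_mul_iff_of_pos_left ha0]
    calc a * ((t' - t) * S t' * (α ^ (k + 1) - 1) / (k + 1))
        = (t' - t) * (S t' * a * (α ^ (k + 1) - 1) / (k + 1)) := by ring
      _ ≤ _ := h2.trans_eq (by ring)
  -- combination
  have hP : 0 < α ^ (k + 1) - 1 := by
    have := one_lt_pow₀ hα1 (Nat.add_one_ne_zero k)
    linarith
  have hQ : 0 ≤ α ^ k - 1 := by linarith [one_le_pow₀ hα1.le (n := k)]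
  set P := (t' - t) * S t' / (k + 1) with hPdef
  have f2 : α ^ k * ((α ^ (k + 1) - 1) * P) ≤ α ^ k * ((T - T') * (α - 1)) := by
    refine mul_le_mul_of_nonneg_left (le_of_eq_of_le ?_ e2) (by linarith)
    rw [hPdef]; ring
  have key : α ^ k * (T' + P) ≤ T := by
    rw [← mul_le_mul_iff_of_pos_left hP]
    have f1 := mul_le_mul_of_nonneg_left e1 hQ
    have ek : α ^ (k + 1) = α * α ^ k := pow_succ' α k
    rw [ek] at f1 f2 ⊢
    linarith
  rw [hαk]
  calc (t' - t) * (α ^ k * S t') * S t' / (k + 1) = α ^ k * (T' + P) * S t' - T' * (α ^ k * S t') := by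
        rw [hPdef]; ring
    _ ≤ T * S t' - T' * (α ^ k * S t') := by
        linarith [mul_le_mul_of_nonneg_right key hpos.le]

/-- The half-line Fubini identity for the tail. -/
theorem Profile.integral_mul_tail (h : Profile k S R) {g : ℝ → ℝ} {C : ℝ} (hg : Measurable g)
    (hgb : ∀ t, 0 < t → t ≤ R → |g t| ≤ C) :
    ∫ t in Ioi 0, g t * tail S t = ∫ s in Ioi 0, S s * ∫ t in Ioo 0 s, g t := by
  set F : ℝ × ℝ → ℝ := {p : ℝ × ℝ | p.1 < p.2}.indicator
    (fun p => (Iic R).indicator g p.1 * S p.2) with hF
  have hms : MeasurableSet {p : ℝ × ℝ | p.1 < p.2} := measurableSet_lt measurable_fst measurable_snd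
  have hgi : IntegrableOn ((Iic R).indicator g) (Ioi 0) :=
    integrableOn_of_bounded (R := R) (C := C) (hg.indicator measurableSet_Iic)
      (fun t ht htR => by rw [indicator_of_mem (mem_Iic.2 htR)]; exact hgb t ht htR)
      (fun t ht => indicator_of_notMem (by simp [ht]) _)
  have hFi : Integrable F ((volume.restrict (Ioi 0)).prod (volume.restrict (Ioi 0))) :=
    (hgi.mul_prod h.integrableOn).indicator hms
  have hswap := integral_integral_swap (f := fun t s => F (t, s)) hFi
  have hl : ∀ t ∈ Ioi (0 : ℝ), ∫ s in Ioi 0, F (t, s) = g t * tail S t := by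
    intro t ht
    have e : (fun s => F (t, s)) = (Ioi t).indicator fun s => (Iic R).indicator g t * S s := by
      ext s
      by_cases hts : t < s <;> simp [hF, indicator, hts]
    rw [e, setIntegral_indicator measurableSet_Ioi, Ioi_inter_Ioi, max_eq_right ht.le,
      integral_const_mul, ← tail_of_nonneg ht.le]
    by_cases htR : t ≤ R
    · rw [indicator_of_mem (mem_Iic.2 htR)]
    · rw [h.tail_supp t (not_le.1 htR), mul_zero, mul_zero]
  have hr : ∀ s ∈ Ioi (0 : ℝ), ∫ t in Ioi 0, F (t, s) = S s * ∫ t in Ioo 0 s, g t := by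
    intro s hs
    have e : (fun t => F (t, s)) = (Iio s).indicator fun t => (Iic R).indicator g t * S s := by
      ext t
      by_cases hts : t < s <;> simp [hF, indicator, hts]
    rw [e, setIntegral_indicator measurableSet_Iio, Ioi_inter_Iio, integral_mul_const, mul_comm]
    by_cases hsR : s ≤ R
    · rw [setIntegral_congr_fun measurableSet_Ioo fun t ht =>
        indicator_of_mem (mem_Iic.2 (ht.2.le.trans hsR)) g]
    · rw [h.supp s (not_le.1 hsR), zero_mul, zero_mul]
  rw [← setIntegral_congr_fun measurableSet_Ioi hl, ← setIntegral_congr_fun measurableSet_Ioi hr]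
  exact hswap

theorem Profile.sq_integrableOn (h : Profile k S R) : IntegrableOn (fun t => S t ^ 2) (Ioi 0) :=
  integrableOn_of_bounded (R := R) (C := S 0 ^ 2) (h.meas.pow_const 2)
    (fun t ht _ => by
      rw [abs_pow, abs_of_nonneg (h.nonneg t)]
      exact pow_le_pow_left₀ (h.nonneg t) (h.anti self_mem_Ici ht.le ht.le) 2)
    (fun t ht => by rw [h.supp t ht]; simp)

/-- The moment of order `p` of a profile. -/
noncomputable def mom (S : ℝ → ℝ) (p : ℕ) : ℝ := ∫ t in Ioi 0, t ^ p * S t

theorem Profile.integral_tail (h : Profile k S R) : ∫ t in Ioi 0, tail S t = mom S 1 := by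
  have e := h.integral_mul_tail (g := fun _ => 1) (C := 1) measurable_const (by simp)
  simp only [one_mul] at e
  rw [e, mom]
  refine setIntegral_congr_fun measurableSet_Ioi fun s hs => ?_
  simp [le_of_lt (mem_Ioi.1 hs), mul_comm]

theorem Profile.integral_id_mul_tail (h : Profile k S R) :
    ∫ t in Ioi 0, t * tail S t = mom S 2 / 2 := by
  rw [show (fun t => t * tail S t) = fun t => id t * tail S t from rfl,
    h.integral_mul_tail (g := id) (C := R) measurable_id
    (fun t ht htR => by simp [abs_of_pos ht, htR]), mom, ← integral_div]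
  refine setIntegral_congr_fun measurableSet_Ioi fun s hs => ?_
  simp only [id]
  rw [← integral_Ioc_eq_integral_Ioo, ← intervalIntegral.integral_of_le (mem_Ioi.1 hs).le,
    integral_id]
  ring

theorem Profile.integral_self_mul_tail (h : Profile k S R) :
    ∫ t in Ioi 0, S t * tail S t = (∫ t in Ioi 0, S t) ^ 2 / 2 := by
  have e := h.integral_mul_tail (g := S) (C := S 0) h.meas fun t ht _ => by
    rw [abs_of_nonneg (h.nonneg t)]; exact h.anti self_mem_Ici ht.le ht.le
  have hd : ∀ s ∈ Ioi (0 : ℝ), S s * ∫ t in Ioo 0 s, S t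
      = S s * (∫ t in Ioi 0, S t) - S s * tail S s := by
    intro s hs
    rw [← mul_sub]
    congr 1
    rw [← integral_Ioc_eq_integral_Ioo, ← intervalIntegral.integral_of_le (mem_Ioi.1 hs).le,
      ← h.tail_sub le_rfl (mem_Ioi.1 hs).le, tail_of_nonneg le_rfl]
  rw [setIntegral_congr_fun measurableSet_Ioi hd, integral_sub (h.integrableOn.mul_const _),
    integral_mul_const] at e
  · linarith
  · refine integrableOn_of_bounded (R := R) (C := S 0 * ∫ t in Ioi 0, S t)
      (h.meas.mul h.tail_antitone.measurable) (fun t ht _ => ?_) (fun t ht => by simp [h.supp t ht])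
    rw [abs_mul, abs_of_nonneg (h.nonneg t), abs_of_nonneg (h.tail_nonneg t)]
    exact mul_le_mul (h.anti self_mem_Ici ht.le ht.le) (h.tail_le t) (h.tail_nonneg t) (h.nonneg 0)

/-- The square of a profile against its first moment. -/
theorem Profile.sq_mul_mom_le (h : Profile k S R) :
    2 * (∫ t in Ioi 0, S t ^ 2) * mom S 1 ≤ (∫ t in Ioi 0, S t) ^ 3 := by
  set μ := volume.restrict (Ioi (0 : ℝ)) with hμ
  set T := tail S with hT
  have iS : Integrable S μ := h.integrableOn
  have iS2 : Integrable (fun t => S t ^ 2) μ := h.sq_integrableOn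
  have iT : Integrable T μ := integrableOn_of_bounded (R := R) (C := ∫ t in Ioi 0, S t)
    h.tail_antitone.measurable (fun t _ _ => by
      rw [abs_of_nonneg (h.tail_nonneg t)]; exact h.tail_le t) h.tail_supp
  have iST : Integrable (fun t => S t * T t) μ :=
    integrableOn_of_bounded (R := R) (C := S 0 * ∫ t in Ioi 0, S t)
      (h.meas.mul h.tail_antitone.measurable) (fun t ht _ => by
        rw [abs_mul, abs_of_nonneg (h.nonneg t), abs_of_nonneg (h.tail_nonneg t)]
        exact mul_le_mul (h.anti self_mem_Ici ht.le ht.le) (h.tail_le t) (h.tail_nonneg t)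
          (h.nonneg 0)) (fun t ht => by simp [h.supp t ht])
  have hpos : 0 ≤ ∫ p : ℝ × ℝ, (S p.1 * T p.1 * S p.2 - S p.1 ^ 2 * T p.2)
      + (S p.1 * (S p.2 * T p.2) - T p.1 * S p.2 ^ 2) ∂μ.prod μ := by
    refine integral_nonneg_of_ae ?_
    rw [hμ, Measure.prod_restrict]
    refine ae_restrict_of_forall_mem (measurableSet_Ioi.prod measurableSet_Ioi) ?_
    rintro ⟨t, s⟩ ⟨ht, hs⟩
    simp only [mem_Ioi] at ht hs
    have key : 0 ≤ (S t - S s) * (T t * S s - T s * S t) := by
      rcases le_total t s with hts | hts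
      · refine mul_nonneg (sub_nonneg.2 (h.anti ht.le hs.le hts)) (le_trans ?_ (h.hazard ht.le hts))
        have := sub_nonneg.2 hts; have := h.nonneg t; have := h.nonneg s
        positivity
      · refine mul_nonneg_of_nonpos_of_nonpos (sub_nonpos.2 (h.anti hs.le ht.le hts)) ?_
        have h1 := h.hazard hs.le hts
        have h2 : 0 ≤ (t - s) * S s * S t / (k + 1) := by
          have := sub_nonneg.2 hts; have := h.nonneg t; have := h.nonneg s
          positivity
        rw [← hT] at h1
        linarith
    simp only [Pi.zero_apply]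
    linarith
  have a1 := iST.mul_prod iS
  have a2 := iS2.mul_prod iT
  have a3 := iS.mul_prod iST
  have a4 := iT.mul_prod iS2
  rw [integral_add, integral_sub, integral_sub, integral_prod_mul (fun t => S t * T t) S,
    integral_prod_mul (fun t => S t ^ 2) T, integral_prod_mul S (fun t => S t * T t),
    integral_prod_mul T (fun t => S t ^ 2)] at hpos
  · rw [hμ, hT, h.integral_self_mul_tail, h.integral_tail] at hpos
    linarith
  · exact a3
  · exact a4
  · exact a1
  · exact a2
  · exact a1.sub a2
  · exact a3.sub a4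

/-- The second moment of a profile against its first moment. -/
theorem Profile.mom_two_le (h : Profile k S R) :
    (∫ t in Ioi 0, S t) * mom S 2 * (k + 3) ≤ 2 * (k + 2) * mom S 1 ^ 2 := by
  set μ := volume.restrict (Ioi (0 : ℝ)) with hμ
  set T := tail S with hT
  have iS : Integrable S μ := h.integrableOn
  have iT : Integrable T μ := integrableOn_of_bounded (R := R) (C := ∫ t in Ioi 0, S t)
    h.tail_antitone.measurable (fun t _ _ => by
      rw [abs_of_nonneg (h.tail_nonneg t)]; exact h.tail_le t) h.tail_supp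
  have iP : ∀ p : ℕ, Integrable (fun t => t ^ p * S t) μ := fun p =>
    integrableOn_of_bounded (R := R) (C := R ^ p * S 0) ((measurable_id.pow_const p).mul h.meas)
      (fun t ht htR => by
        rw [abs_mul, abs_pow, abs_of_pos ht, abs_of_nonneg (h.nonneg t)]
        exact mul_le_mul (pow_le_pow_left₀ ht.le htR p) (h.anti self_mem_Ici ht.le ht.le)
          (h.nonneg t) (pow_nonneg (ht.le.trans htR) p))
      (fun t ht => by simp [h.supp t ht])
  have itT : Integrable (fun t => t * T t) μ :=
    integrableOn_of_bounded (R := R) (C := R * ∫ t in Ioi 0, S t)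
      (measurable_id.mul h.tail_antitone.measurable) (fun t ht htR => by
        rw [abs_mul, abs_of_pos ht, abs_of_nonneg (h.tail_nonneg t)]
        exact mul_le_mul htR (h.tail_le t) (h.tail_nonneg t) (ht.le.trans htR))
      (fun t ht => by simp [hT, h.tail_supp t ht])
  have a1 := iT.mul_prod (iP 1)
  have a2 := itT.mul_prod iS
  have a3 := (iP 1).mul_prod iT
  have a4 := iS.mul_prod itT
  have a5 := ((iP 2).mul_prod iS).const_mul (1 / (k + 1 : ℝ))
  have a6 := ((iP 1).mul_prod (iP 1)).const_mul (2 / (k + 1 : ℝ))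
  have a7 := (iS.mul_prod (iP 2)).const_mul (1 / (k + 1 : ℝ))
  have hpos : 0 ≤ ∫ p : ℝ × ℝ,
      ((T p.1 * (p.2 ^ 1 * S p.2) - p.1 * T p.1 * S p.2)
        + (p.1 ^ 1 * S p.1 * T p.2 - S p.1 * (p.2 * T p.2)))
      - ((1 / (k + 1 : ℝ) * (p.1 ^ 2 * S p.1 * S p.2)
          - 2 / (k + 1 : ℝ) * (p.1 ^ 1 * S p.1 * (p.2 ^ 1 * S p.2)))
        + 1 / (k + 1 : ℝ) * (S p.1 * (p.2 ^ 2 * S p.2))) ∂μ.prod μ := by
    refine integral_nonneg_of_ae ?_
    rw [hμ, Measure.prod_restrict]
    refine ae_restrict_of_forall_mem (measurableSet_Ioi.prod measurableSet_Ioi) ?_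
    rintro ⟨t, s⟩ ⟨ht, hs⟩
    simp only [mem_Ioi] at ht hs
    have key : (s - t) ^ 2 * S t * S s / (k + 1) ≤ (s - t) * (T t * S s - T s * S t) := by
      rcases le_total t s with hts | hts
      · refine (le_of_eq ?_).trans
          (mul_le_mul_of_nonneg_left (h.hazard ht.le hts) (sub_nonneg.2 hts))
        ring
      · have h1 := mul_le_mul_of_nonneg_left (h.hazard hs.le hts) (sub_nonneg.2 hts)
        linear_combination h1
    simp only [Pi.zero_apply, sub_nonneg]
    linear_combination key
  rw [integral_sub, integral_add, integral_add, integral_sub, integral_sub, integral_sub,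
    integral_prod_mul T (fun s => s ^ 1 * S s), integral_prod_mul (fun t => t * T t) S,
    integral_prod_mul (fun t => t ^ 1 * S t) T, integral_prod_mul S (fun s => s * T s),
    integral_const_mul, integral_const_mul, integral_const_mul,
    integral_prod_mul (fun t => t ^ 2 * S t) S,
    integral_prod_mul (fun t => t ^ 1 * S t) (fun s => s ^ 1 * S s),
    integral_prod_mul S (fun s => s ^ 2 * S s)] at hpos
  · rw [hμ, hT, h.integral_tail, h.integral_id_mul_tail] at hpos
    simp only [← mom.eq_def] at hpos
    have hn : (0 : ℝ) < k + 1 := by positivity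
    have := mul_le_mul_of_nonneg_left hpos hn.le
    rw [mul_zero] at this
    field_simp at this
    linarith
  · exact a5
  · exact a6
  · exact a3
  · exact a4
  · exact a1
  · exact a2
  · exact a5.sub a6
  · exact a7
  · exact a1.sub a2
  · exact a3.sub a4
  · exact (a1.sub a2).add (a3.sub a4)
  · exact (a5.sub a6).add a7

end Vale.P254
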