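import Mathlib
import Vale.Agent.P254.BM
import Vale.Agent.P254.OneDim

/-! Moments of convex bodies invariant under sign changes and permutations of the coordinates. -/

namespace Vale.P254

open MeasureTheory Set Filter

/-- A compact convex set invariant under coordinate sign changes and permutations. -/
structure SymBody {n : ℕ} (K : Set (Fin n → ℝ)) : Prop where
  compact : IsCompact K
  convex : Convex ℝ K
  flip : ∀ i, ∀ x ∈ K, Function.update x i (-x i) ∈ K
  perm : ∀ σ : Equiv.Perm (Fin n), ∀ x ∈ K, x ∘ σ ∈ K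

/-- The slice at first coordinate `t`. -/
def sl {k : ℕ} (K : Set (Fin (k + 1) → ℝ)) (t : ℝ) : Set (Fin k → ℝ) :=
  {y | Fin.cons t y ∈ K}

/-- The volume of the slice. -/
noncomputable def slVol {k : ℕ} (K : Set (Fin (k + 1) → ℝ)) (t : ℝ) : ℝ := volume.real (sl K t)

variable {n k : ℕ}

theorem SymBody.zero_mem {K : Set (Fin n → ℝ)} (h : SymBody K) {x : Fin n → ℝ} (hx : x ∈ K) :
    (0 : Fin n → ℝ) ∈ K := by
  suffices H : ∀ s : Finset (Fin n), (fun i => if i ∈ s then 0 else x i) ∈ K by
    simpa [Pi.zero_def] using H Finset.univ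
  intro s
  induction s using Finset.induction_on with
  | empty => simpa using hx
  | insert a s ha ih =>
    set y : Fin n → ℝ := fun i => if i ∈ s then 0 else x i with hy
    have := h.convex ih (h.flip a y ih) (by norm_num : (0 : ℝ) ≤ 1 / 2)
      (by norm_num : (0 : ℝ) ≤ 1 / 2) (by norm_num)
    convert this using 1
    funext i
    rcases eq_or_ne i a with rfl | hia
    · simp
    · simp [hia, hy]
      split_ifs <;> ring

theorem SymBody.sl_neg {K : Set (Fin (k + 1) → ℝ)} (h : SymBody K) (t : ℝ) :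
    sl K (-t) = sl K t := by
  have key : ∀ (s : ℝ) (y : Fin k → ℝ), Fin.cons s y ∈ K → Fin.cons (-s) y ∈ K := fun s y hy => by
    have := h.flip 0 _ hy
    simpa [Fin.update_cons_zero] using this
  ext y
  refine ⟨fun hy => ?_, fun hy => key _ _ hy⟩
  show Fin.cons t y ∈ K
  simpa using key _ _ hy

theorem continuous_cons (t : ℝ) : Continuous fun y : Fin k → ℝ => (Fin.cons t y : Fin (k + 1) → ℝ) :=
  Continuous.finCons continuous_const continuous_id

theorem SymBody.sl {K : Set (Fin (k + 1) → ℝ)} (h : SymBody K) (t : ℝ) : SymBody (sl K t) where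
  compact := by
    refine (h.compact.image (f := fun x i => x (Fin.succ i)) (by fun_prop)).of_isClosed_subset
      (h.compact.isClosed.preimage (continuous_cons t)) fun y hy => ?_
    exact ⟨_, hy, by simp⟩
  convex := by
    intro x hx y hy a b ha hb hab
    have := h.convex hx hy ha hb hab
    show Fin.cons t (a • x + b • y) ∈ K
    convert this using 1
    funext i
    refine Fin.cases ?_ (fun j => ?_) i
    · simp [← add_mul, hab]
    · simp
  flip := fun i x hx => by
    have := h.flip i.succ _ hx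
    simpa [Vale.P254.sl, Fin.cons_update] using this
  perm := fun σ x hx => by
    have := h.perm (Equiv.Perm.decomposeFin.symm (0, σ)) _ hx
    show Fin.cons t (x ∘ σ) ∈ K
    convert this using 1
    funext i
    refine Fin.cases ?_ (fun j => ?_) i <;> simp

theorem SymBody.sl_subset {K : Set (Fin (k + 1) → ℝ)} (h : SymBody K) {t s : ℝ} (ht : 0 ≤ t)
    (hts : t ≤ s) : Vale.P254.sl K s ⊆ Vale.P254.sl K t := by
  intro y hy
  rcases hts.eq_or_lt with rfl | hlt
  · exact hy
  have hy' : y ∈ Vale.P254.sl K (-s) := by rw [h.sl_neg]; exact hy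
  have hs : 0 < s := ht.trans_lt hlt
  have h1 : t / s ≤ 1 := (div_le_one hs).2 hts
  have h0 : 0 ≤ t / s := div_nonneg ht hs.le
  have := h.convex hy hy' (show 0 ≤ (1 + t / s) / 2 by linarith)
    (show 0 ≤ (1 - t / s) / 2 by linarith) (by ring)
  show Fin.cons t y ∈ K
  convert this using 1
  funext i
  refine Fin.cases ?_ (fun j => ?_) i
  · simp; field_simp; ring
  · simp; ring

theorem SymBody.sl_mem_bound {K : Set (Fin (k + 1) → ℝ)} (h : SymBody K) :
    ∃ R, 0 ≤ R ∧ ∀ t y, Fin.cons t y ∈ K → |t| ≤ R := by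
  obtain ⟨R, hR⟩ := h.compact.isBounded.exists_norm_le
  refine ⟨max R 0, le_max_right _ _, fun t y hy => ?_⟩
  have h1 : ‖(Fin.cons t y : Fin (k + 1) → ℝ) 0‖ ≤ ‖(Fin.cons t y : Fin (k + 1) → ℝ)‖ :=
    norm_le_pi_norm _ 0
  rw [Fin.cons_zero, Real.norm_eq_abs] at h1
  exact (h1.trans (hR _ hy)).trans (le_max_left _ _)

theorem measurable_slVol {K : Set (Fin (k + 1) → ℝ)} (hK : MeasurableSet K) :
    Measurable (slVol K) := by
  have hs : MeasurableSet ((fun p : ℝ × (Fin k → ℝ) => (Fin.cons p.1 p.2 : Fin (k + 1) → ℝ)) ⁻¹' K) :=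
    hK.preimage (by fun_prop)
  exact (measurable_measure_prodMk_left (ν := (volume : Measure (Fin k → ℝ))) hs).ennreal_toReal

theorem SymBody.profile {K : Set (Fin (k + 1) → ℝ)} (h : SymBody K) :
    ∃ R, 0 ≤ R ∧ Profile k (slVol K) R := by
  obtain ⟨R, hR0, hR⟩ := h.sl_mem_bound
  refine ⟨R, hR0, ⟨measurable_slVol h.compact.measurableSet, fun t => measureReal_nonneg, ?_, ?_,
    ?_, ?_⟩⟩
  · intro t ht s _ hts
    exact measureReal_mono (h.sl_subset ht hts) (h.sl t).compact.measure_lt_top.ne
  · intro t ht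
    have : Vale.P254.sl K t = ∅ := eq_empty_of_forall_notMem fun y hy =>
      absurd ((le_abs_self t).trans (hR t y hy)) (not_le.2 ht)
    simp [slVol, this]
  · rintro rfl t ht
    have hne : (Vale.P254.sl K t).Nonempty := by
      rw [nonempty_iff_ne_empty]; rintro he; simp [slVol, he] at ht
    have : Vale.P254.sl K t = univ := eq_univ_of_forall fun y => by
      obtain ⟨z, hz⟩ := hne; rwa [Subsingleton.elim y z]
    simp [slVol, this, measureReal_def, volume_pi, Measure.pi_empty_univ]
  · intro t s r _ _ hr0 hr1 c d hc hd hct hds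
    have hne : ∀ {u c : ℝ}, 0 < c → c ^ k ≤ slVol K u → (Vale.P254.sl K u).Nonempty := by
      intro u c hc hcu
      rw [nonempty_iff_ne_empty]
      rintro he
      simp [slVol, he] at hcu
      exact absurd hcu (not_le.2 (pow_pos hc k))
    obtain ⟨x, hx⟩ := hne hc hct
    obtain ⟨y, hy⟩ := hne hd hds
    refine brunn_minkowski (h.sl t).compact (h.sl s).compact (h.sl t).convex (h.sl s).convex
      ((h.sl t).zero_mem hx) ((h.sl s).zero_mem hy) (h.sl _).compact hc hd (by linarith) hr0
      (by linarith) hct hds fun a ha b hb => ?_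
    have := h.convex ha hb (show 0 ≤ 1 - r by linarith) hr0 (by ring)
    show Fin.cons _ _ ∈ K
    convert this using 1
    funext i
    refine Fin.cases ?_ (fun j => ?_) i <;> simp

/-- Fubini over the first coordinate. -/
theorem integral_slice {K : Set (Fin (k + 1) → ℝ)} (hK : IsCompact K)
    {f : (Fin (k + 1) → ℝ) → ℝ} (hf : Continuous f) :
    Integrable (fun t => ∫ y in sl K t, f (Fin.cons t y)) ∧
      ∫ x in K, f x = ∫ t, ∫ y in sl K t, f (Fin.cons t y) := by
  set e : (Fin (k + 1) → ℝ) ≃ᵐ ℝ × (Fin k → ℝ) :=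
    MeasurableEquiv.piFinSuccAbove (fun _ => ℝ) 0 with he
  have hp : MeasurePreserving e.symm (volume : Measure (ℝ × (Fin k → ℝ))) volume :=
    (volume_preserving_piFinSuccAbove (fun _ : Fin (k + 1) => ℝ) 0).symm
  have hc : ∀ p : ℝ × (Fin k → ℝ), e.symm p = Fin.cons p.1 p.2 := fun p => by
    simp [he, MeasurableEquiv.piFinSuccAbove, Fin.consEquiv]
  have hi : Integrable (K.indicator f) :=
    (hf.continuousOn.integrableOn_compact hK).integrable_indicator hK.measurableSet
  have hi' : Integrable (fun p => K.indicator f (e.symm p))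
      ((volume : Measure ℝ).prod (volume : Measure (Fin k → ℝ))) :=
    hp.integrable_comp_of_integrable hi
  have hinner : ∀ t, ∫ y, K.indicator f (e.symm (t, y)) = ∫ y in sl K t, f (Fin.cons t y) := by
    intro t
    have hm : MeasurableSet (sl K t) := hK.measurableSet.preimage (continuous_cons t).measurable
    rw [← integral_indicator hm]
    refine integral_congr_ae (Eventually.of_forall fun y => ?_)
    show K.indicator f (e.symm (t, y)) = _
    rw [hc (t, y)]
    simp only [indicator, sl, mem_ofPred_eq]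
    congr
  refine ⟨by simpa only [hinner] using hi'.integral_prod_left, ?_⟩
  rw [← integral_indicator hK.measurableSet, ← hp.integral_comp e.symm.measurableEmbedding,
    Measure.volume_eq_prod, integral_prod _ hi']
  simp only [hinner]

theorem SymBody.integral_slice_half {K : Set (Fin (k + 1) → ℝ)} (h : SymBody K)
    {f : (Fin (k + 1) → ℝ) → ℝ} (hf : Continuous f)
    (heven : ∀ t y, f (Fin.cons (-t) y) = f (Fin.cons t y)) :
    IntegrableOn (fun t => ∫ y in Vale.P254.sl K t, f (Fin.cons t y)) (Ioi 0) ∧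
      ∫ x in K, f x = 2 * ∫ t in Ioi 0, ∫ y in Vale.P254.sl K t, f (Fin.cons t y) := by
  obtain ⟨hi, he⟩ := integral_slice h.compact hf
  refine ⟨hi.integrableOn, ?_⟩
  rw [he, ← integral_comp_abs]
  refine integral_congr_ae (Eventually.of_forall fun t => ?_)
  simp only
  rcases abs_choice t with ht | ht
  · rw [ht]
  · rw [ht, h.sl_neg]
    exact setIntegral_congr_fun (h.sl t).compact.measurableSet fun y _ => (heven t y).symm

/-- The integral of a function of one coordinate does not depend on the coordinate. -/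
theorem SymBody.integral_coord {K : Set (Fin n → ℝ)} (h : SymBody K) (g : ℝ → ℝ) (i j : Fin n) :
    ∫ x in K, g (x i) = ∫ x in K, g (x j) := by
  set σ := Equiv.swap i j with hσ
  set e := MeasurableEquiv.piCongrLeft (fun _ : Fin n => ℝ) σ with he
  have hp : MeasurePreserving e volume volume :=
    volume_measurePreserving_piCongrLeft (fun _ : Fin n => ℝ) σ
  have hev : ∀ x : Fin n → ℝ, e x = x ∘ σ := fun x => by
    funext l
    have := Equiv.piCongrLeft_apply_apply (fun _ : Fin n => ℝ) σ x (σ l)
    simpa [he, hσ, MeasurableEquiv.coe_piCongrLeft] using this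
  have hK : e ⁻¹' K = K := by
    ext x
    rw [mem_preimage, hev]
    refine ⟨fun hx => ?_, h.perm σ x⟩
    have := h.perm σ _ hx
    convert this using 1
    funext l
    simp [hσ]
  have := hp.setIntegral_preimage_emb e.measurableEmbedding (fun x => g (x i)) K
  rw [hK] at this
  rw [← this]
  simp [hev, hσ]

theorem pow_add_mul_le {a u : ℝ} (ha : 0 ≤ a) (hu : 0 ≤ u) (m : ℕ) :
    (m + 1) * a ^ m * u ≤ u ^ (m + 1) + m * a ^ (m + 1) := by
  induction m with
  | zero => simp
  | succ m ih =>
    have h1 := mul_le_mul_of_nonneg_right ih hu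
    have h2 : 0 ≤ (m + 1) * a ^ m * (u - a) ^ 2 := by positivity
    push_cast
    linear_combination h1 + h2

theorem slVol_eq {K : Set (Fin (k + 1) → ℝ)} (t : ℝ) :
    ∫ _y in sl K t, (1 : ℝ) = slVol K t := by
  simp [slVol, measureReal_def]

/-- The moments of a body in terms of its slices. -/
theorem SymBody.volume_eq {K : Set (Fin (k + 1) → ℝ)} (h : SymBody K) :
    volume.real K = 2 * ∫ t in Ioi 0, slVol K t := by
  have := (h.integral_slice_half (f := fun _ => 1) continuous_const fun _ _ => rfl).2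
  simp only [slVol_eq] at this
  simpa using this

theorem SymBody.mom_eq {K : Set (Fin (k + 1) → ℝ)} (h : SymBody K) (p : ℕ) :
    ∫ x in K, |x 0| ^ p = 2 * mom (slVol K) p := by
  have := (h.integral_slice_half (f := fun x => |x 0| ^ p) (by fun_prop)
    fun t y => by simp).2
  rw [this, mom]
  congr 1
  refine setIntegral_congr_fun measurableSet_Ioi fun t ht => ?_
  simp [abs_of_pos (mem_Ioi.1 ht), slVol, measureReal_def, mul_comm]

/-- The volume bounds the product of the first absolute moments. -/
theorem SymBody.moment_le : ∀ {n : ℕ} {K : Set (Fin n → ℝ)}, SymBody K → ∀ i,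
    (4 * ∫ x in K, |x i|) ^ n ≤ volume.real K ^ (n + 1) := by
  intro n
  induction n with
  | zero => intro K _ i; exact i.elim0
  | succ k ih =>
    intro K h i
    rw [h.integral_coord (fun z => |z|) i 0]
    obtain ⟨R, hR0, hp⟩ := h.profile
    set I0 := ∫ t in Ioi 0, slVol K t with hI0
    set I1 := mom (slVol K) 1 with hI1
    have hV : volume.real K = 2 * I0 := h.volume_eq
    have hM : ∫ x in K, |x 0| = 2 * I1 := by
      have := h.mom_eq 1
      simpa using this
    rw [hV, hM]
    have hI00 : 0 ≤ I0 := setIntegral_nonneg measurableSet_Ioi fun t _ => hp.nonneg t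
    have hI10 : 0 ≤ I1 := setIntegral_nonneg measurableSet_Ioi fun t ht =>
      mul_nonneg (pow_nonneg (mem_Ioi.1 ht).le 1) (hp.nonneg t)
    have hA := hp.sq_mul_mom_le
    rw [← hI0, ← hI1] at hA
    rcases hI00.eq_or_lt with h0 | hpos
    · have h1 : I1 ≤ R * I0 := by
        rw [hI1, mom, hI0, ← integral_const_mul]
        refine setIntegral_mono_on ?_ (hp.integrableOn.const_mul R) measurableSet_Ioi fun t ht => ?_
        · exact integrableOn_of_bounded (R := R) (C := R * slVol K 0)
            ((measurable_id.pow_const 1).mul hp.meas) (fun t ht htR => by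
              rw [abs_mul, pow_one, abs_of_pos ht, abs_of_nonneg (hp.nonneg t)]
              exact mul_le_mul htR (hp.anti self_mem_Ici ht.le ht.le) (hp.nonneg t) hR0)
            (fun t ht => by simp [hp.supp t ht])
        · rcases le_or_gt t R with htR | htR
          · exact mul_le_mul_of_nonneg_right (by simpa using htR) (hp.nonneg t)
          · simp [hp.supp t htR]
      have : I1 = 0 := le_antisymm (by rw [← h0, mul_zero] at h1; exact h1) hI10
      rw [this, mul_zero, mul_zero, zero_pow (Nat.add_one_ne_zero k)]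
      positivity
    cases k with
    | zero =>
      have hsq : ∫ t in Ioi 0, slVol K t ^ 2 = I0 := by
        refine setIntegral_congr_fun measurableSet_Ioi fun t _ => ?_
        rcases (hp.nonneg t).eq_or_lt with e | e
        · rw [← e]; simp
        · rw [hp.dim_zero rfl t e]; simp
      rw [hsq] at hA
      have : 2 * I1 ≤ I0 ^ 2 := by
        rw [← mul_le_mul_iff_of_pos_left hpos]; linarith
      norm_num
      linarith
    | succ m =>
      obtain ⟨hMi, hMe⟩ := h.integral_slice_half (f := fun x => |x (Fin.succ 0)|) (by fun_prop)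
        fun t y => by simp
      rw [h.integral_coord (fun z => |z|) (Fin.succ 0) 0, hM] at hMe
      set J := ∫ t in Ioi 0, ∫ y in Vale.P254.sl K t, |(Fin.cons t y : Fin (m + 2) → ℝ) (Fin.succ 0)|
        with hJ
      have hJ1 : I1 = J := by linarith
      set a := 4 * J / I0 with ha
      have ha0 : 0 ≤ a := by rw [← hJ1] at ha; rw [ha]; positivity
      have hpt : ∀ t ∈ Ioi (0 : ℝ), (m + 1) * a ^ m *
          (4 * ∫ y in Vale.P254.sl K t, |(Fin.cons t y : Fin (m + 2) → ℝ) (Fin.succ 0)|)
            ≤ slVol K t ^ 2 + m * a ^ (m + 1) * slVol K t := by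
        intro t _
        simp only [Fin.cons_succ]
        have hs := ih (h.sl t) 0
        set M' := 4 * ∫ y in Vale.P254.sl K t, |y 0| with hM'
        have hM'0 : 0 ≤ M' := mul_nonneg (by norm_num)
          (setIntegral_nonneg (h.sl t).compact.measurableSet fun y _ => abs_nonneg _)
        change M' ^ (m + 1) ≤ slVol K t ^ (m + 1 + 1) at hs
        rcases (hp.nonneg t).eq_or_lt with e | e
        · rw [← e, zero_pow (Nat.add_one_ne_zero _)] at hs
          have : M' = 0 := pow_eq_zero_iff (Nat.add_one_ne_zero m) |>.1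
            (le_antisymm hs (pow_nonneg hM'0 _))
          rw [this, ← e]; simp
        · set u := M' / slVol K t with hu
          have hu' : u * slVol K t = M' := div_mul_cancel₀ _ e.ne'
          have hum : u ^ (m + 1) ≤ slVol K t := by
            rw [hu, div_pow, div_le_iff₀ (pow_pos e _), ← pow_succ']
            exact hs
          have := mul_le_mul_of_nonneg_right
            ((pow_add_mul_le ha0 (div_nonneg hM'0 e.le) m).trans (add_le_add hum le_rfl)) e.le
          linear_combination this - ((m + 1) * a ^ m) * hu'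
      have hi1 : IntegrableOn (fun t => (m + 1) * a ^ m *
          (4 * ∫ y in Vale.P254.sl K t, |(Fin.cons t y : Fin (m + 2) → ℝ) (Fin.succ 0)|)) (Ioi 0) :=
        (hMi.const_mul 4).const_mul _
      have hint := setIntegral_mono_on hi1
        (hp.sq_integrableOn.add (hp.integrableOn.const_mul _)) measurableSet_Ioi hpt
      simp only [Pi.add_apply] at hint
      rw [integral_const_mul, integral_const_mul, integral_add hp.sq_integrableOn
        (hp.integrableOn.const_mul _), integral_const_mul, ← hJ, ← hI0] at hint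
      have h4 : 4 * J = a * I0 := (div_mul_cancel₀ _ hpos.ne').symm
      rw [h4] at hint
      have hkey : a ^ (m + 1) * I0 ≤ ∫ t in Ioi 0, slVol K t ^ 2 := by
        rw [pow_succ] at *
        linarith
      have h2 : a ^ (m + 1) * I0 * (2 * I1) ≤ I0 ^ 3 :=
        (mul_le_mul_of_nonneg_right hkey (by linarith)).trans (by linarith)
      have h3 : (4 * I1) ^ (m + 1) * (2 * I1) ≤ I0 ^ (m + 3) := by
        rw [hJ1, h4, ← hJ1, mul_pow, ← mul_le_mul_iff_of_pos_left hpos]
        calc I0 * (a ^ (m + 1) * I0 ^ (m + 1) * (2 * I1))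
            = a ^ (m + 1) * I0 * (2 * I1) * I0 ^ (m + 1) := by ring
          _ ≤ I0 ^ 3 * I0 ^ (m + 1) := mul_le_mul_of_nonneg_right h2 (by positivity)
          _ = I0 * I0 ^ (m + 3) := by ring
      calc (4 * (2 * I1)) ^ (m + 1 + 1) = (4 * I1) ^ (m + 1) * (2 * I1) * 2 ^ (m + 3) := by
            rw [show 4 * (2 * I1) = 2 * (4 * I1) by ring, mul_pow, pow_succ (4 * I1) (m + 1)]; ring
        _ ≤ I0 ^ (m + 3) * 2 ^ (m + 3) := mul_le_mul_of_nonneg_right h3 (by positivity)
        _ = (2 * I0) ^ (m + 1 + 1 + 1) := by ring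

/-- The second moment, normalised by the volume. -/
theorem SymBody.second_moment_le {n : ℕ} {K : Set (Fin n → ℝ)} (h : SymBody K) (i : Fin n)
    (hV : 0 < volume.real K) :
    ((∫ x in K, x i ^ 2) / volume.real K) ^ n
      ≤ ((n + 1) / (8 * (n + 2)) : ℝ) ^ n * volume.real K ^ 2 := by
  obtain ⟨k, rfl⟩ : ∃ k, n = k + 1 := ⟨n - 1, by have := i.isLt; omega⟩
  have hmain := h.moment_le i
  rw [h.integral_coord (fun z => |z|) i 0] at hmain
  rw [h.integral_coord (fun z => z ^ 2) i 0]
  obtain ⟨R, _, hp⟩ := h.profile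
  have hB := hp.mom_two_le
  have hV' := h.volume_eq
  have hQ : ∫ x in K, x 0 ^ 2 = 2 * mom (slVol K) 2 := by
    have := h.mom_eq 2
    simpa [sq_abs] using this
  have hM : ∫ x in K, |x 0| = 2 * mom (slVol K) 1 := by
    have := h.mom_eq 1
    simpa using this
  set V := volume.real K with hVdef
  set Q := ∫ x in K, x 0 ^ 2 with hQdef
  set M := ∫ x in K, |x 0| with hMdef
  have hQ0 : 0 ≤ Q := setIntegral_nonneg h.compact.measurableSet fun x _ => sq_nonneg _
  have hM0 : 0 ≤ M := setIntegral_nonneg h.compact.measurableSet fun x _ => abs_nonneg _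
  have h1 : V * Q * (k + 3) ≤ 2 * (k + 2) * M ^ 2 := by
    rw [hV', hQ, hM]; linarith
  have h2 := pow_le_pow_left₀ (by positivity) h1 (k + 1)
  have h3 : ((4 * M) ^ (k + 1)) ^ 2 ≤ (V ^ (k + 2)) ^ 2 := pow_le_pow_left₀ (by positivity) hmain 2
  push_cast
  rw [show ((k : ℝ) + 1 + 1) / (8 * (k + 1 + 2)) = (2 * (k + 2)) / (16 * (k + 3)) by
      field_simp; ring, div_pow, div_pow, div_mul_eq_mul_div,
    div_le_div_iff₀ (pow_pos hV _) (by positivity)]
  rw [← mul_le_mul_iff_of_pos_left (pow_pos hV (k + 1))]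
  calc V ^ (k + 1) * (Q ^ (k + 1) * (16 * (k + 3)) ^ (k + 1))
      = 16 ^ (k + 1) * (V * Q * (k + 3)) ^ (k + 1) := by rw [mul_pow, mul_pow, mul_pow]; ring
    _ ≤ 16 ^ (k + 1) * (2 * (k + 2) * M ^ 2) ^ (k + 1) :=
        mul_le_mul_of_nonneg_left h2 (by positivity)
    _ = (2 * (k + 2)) ^ (k + 1) * ((4 * M) ^ (k + 1)) ^ 2 := by
        rw [show ((4 * M) ^ (k + 1)) ^ 2 = (16 * M ^ 2) ^ (k + 1) by
          rw [← pow_mul, mul_comm (k + 1) 2, pow_mul, mul_pow]; norm_num,
          mul_pow (16 : ℝ), mul_pow (2 * ((k : ℝ) + 2))]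
        ring
    _ ≤ (2 * (k + 2)) ^ (k + 1) * (V ^ (k + 2)) ^ 2 :=
        mul_le_mul_of_nonneg_left h3 (by positivity)
    _ = V ^ (k + 1) * ((2 * (k + 2)) ^ (k + 1) * V ^ 2 * V ^ (k + 1)) := by ring

end Vale.P254
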