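import Mathlib

/-! The covariance matrix and the isotropic constant of a set in coordinate space. -/

namespace Vale.P254

open MeasureTheory

/-- The centroid. -/
noncomputable def centroid {n : ℕ} (K : Set (Fin n → ℝ)) : Fin n → ℝ :=
  fun i => (∫ x in K, x i) / volume.real K

/-- The covariance matrix. -/
noncomputable def covMat {n : ℕ} (K : Set (Fin n → ℝ)) : Matrix (Fin n) (Fin n) ℝ :=
  Matrix.of fun i j => (∫ x in K, (x i - centroid K i) * (x j - centroid K j)) / volume.real K

/-- The isotropic constant `(det Σ_K / |K|²)^(1/(2n))`. -/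
noncomputable def isoConst {n : ℕ} (K : Set (Fin n → ℝ)) : ℝ :=
  ((covMat K).det / volume.real K ^ 2) ^ (1 / (2 * (n : ℝ)))

end Vale.P254
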