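import Mathlib
import Vale.Agent.P254.Defs

/-! The isotropic constant is invariant under affine automorphisms. -/

namespace Vale.P254

open MeasureTheory Set Matrix

variable {n : ℕ}

theorem affine_apply (A : (Fin n → ℝ) ≃ᵃ[ℝ] (Fin n → ℝ)) (x : Fin n → ℝ) :
    A x = A.linear x + A 0 := by
  have := A.map_vadd 0 x
  simpa [vadd_eq_add] using this

theorem affine_integral (A : (Fin n → ℝ) ≃ᵃ[ℝ] (Fin n → ℝ)) (K : Set (Fin n → ℝ))
    (f : (Fin n → ℝ) → ℝ) :
    ∫ x in A '' K, f x =
      |LinearMap.det (A.linear : (Fin n → ℝ) →ₗ[ℝ] (Fin n → ℝ))| * ∫ x in K, f (A x) := by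
  set L := (A.linear : (Fin n → ℝ) →ₗ[ℝ] (Fin n → ℝ)) with hL
  have hd : LinearMap.det L ≠ 0 := (LinearEquiv.isUnit_det' A.linear).ne_zero
  have hA : ∀ x, A x = L x + A 0 := affine_apply A
  have hc : Continuous A := by
    have : (A : (Fin n → ℝ) → (Fin n → ℝ)) = fun x => L x + A 0 := funext hA
    rw [this]
    exact L.continuous_of_finiteDimensional.add continuous_const
  have hemb : MeasurableEmbedding A := hc.measurableEmbedding A.injective
  have hmap : Measure.map A volume = ENNReal.ofReal |(LinearMap.det L)⁻¹| • volume := by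
    have h1 : Measure.map A volume
        = Measure.map (fun y => y + A 0) (Measure.map L volume) := by
      rw [Measure.map_map (measurable_add_const _) L.continuous_of_finiteDimensional.measurable]
      congr 1
      exact funext hA
    rw [h1, Measure.map_linearMap_addHaar_eq_smul_addHaar volume hd, Measure.map_smul,
      map_add_right_eq_self]
  have h := hemb.setIntegral_map (μ := volume) f (A '' K)
  rw [hmap, A.injective.preimage_image, Measure.restrict_smul, integral_smul_measure,
    ENNReal.toReal_ofReal (abs_nonneg _), smul_eq_mul] at h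
  rw [← h, ← mul_assoc, ← abs_mul, mul_inv_cancel₀ hd, abs_one, one_mul]

theorem affine_volume (A : (Fin n → ℝ) ≃ᵃ[ℝ] (Fin n → ℝ)) (K : Set (Fin n → ℝ)) :
    volume.real (A '' K) =
      |LinearMap.det (A.linear : (Fin n → ℝ) →ₗ[ℝ] (Fin n → ℝ))| * volume.real K := by
  simpa [measureReal_def] using affine_integral A K fun _ => (1 : ℝ)

/-- The ratio whose root is the isotropic constant is an affine invariant. -/
theorem affine_ratio (A : (Fin n → ℝ) ≃ᵃ[ℝ] (Fin n → ℝ)) {K : Set (Fin n → ℝ)}
    (hK : IsCompact K) (hV : 0 < volume.real K) :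
    (covMat (A '' K)).det / volume.real (A '' K) ^ 2 = (covMat K).det / volume.real K ^ 2 := by
  set L := (A.linear : (Fin n → ℝ) →ₗ[ℝ] (Fin n → ℝ)) with hL
  set δ := |LinearMap.det L| with hδ
  have hδ0 : 0 < δ := abs_pos.2 (LinearEquiv.isUnit_det' A.linear).ne_zero
  set P := LinearMap.toMatrix' L with hP
  have hA : ∀ x i, A x i = (∑ l, P i l * x l) + A 0 i := fun x i => by
    have h := affine_apply A x
    rw [show ∑ l, P i l * x l = (P.mulVec x) i from rfl, hP, LinearMap.toMatrix'_mulVec, h]
    rfl
  have hi : ∀ g : (Fin n → ℝ) → ℝ, Continuous g → IntegrableOn g K := fun g hg =>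
    hg.continuousOn.integrableOn_compact hK
  have hb : ∀ i, centroid (A '' K) i = (∑ l, P i l * centroid K l) + A 0 i := fun i => by
    rw [centroid, affine_integral, affine_volume, mul_div_mul_left _ _ hδ0.ne',
      div_eq_iff hV.ne']
    rw [setIntegral_congr_fun hK.measurableSet fun x _ => hA x i]
    rw [integral_add (hi _ (by fun_prop)) (hi _ continuous_const),
      integral_finsetSum _ fun l _ => hi _ (by fun_prop), setIntegral_const, smul_eq_mul,
      add_mul, Finset.sum_mul]
    refine congr_arg₂ (· + ·) (Finset.sum_congr rfl fun l _ => ?_) (mul_comm _ _)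
    rw [integral_const_mul, centroid, mul_assoc, div_mul_cancel₀ _ hV.ne']
  have hcov : covMat (A '' K) = P * covMat K * Pᵀ := by
    ext i j
    simp only [covMat, Matrix.of_apply, Matrix.mul_apply, Matrix.transpose_apply, Finset.sum_mul]
    rw [affine_integral, affine_volume, mul_div_mul_left _ _ hδ0.ne']
    have e : ∀ x : Fin n → ℝ, (A x i - centroid (A '' K) i) * (A x j - centroid (A '' K) j)
        = ∑ l', ∑ l, P i l * P j l' * ((x l - centroid K l) * (x l' - centroid K l')) := fun x => by
      rw [hA x i, hA x j, hb i, hb j, add_sub_add_right_eq_sub, add_sub_add_right_eq_sub,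
        ← Finset.sum_sub_distrib, ← Finset.sum_sub_distrib, Finset.sum_mul_sum, Finset.sum_comm]
      exact Finset.sum_congr rfl fun l' _ => Finset.sum_congr rfl fun l _ => by ring
    simp only [e]
    rw [integral_finsetSum _ fun l' _ => hi _ (by fun_prop), Finset.sum_div]
    refine Finset.sum_congr rfl fun l' _ => ?_
    rw [integral_finsetSum _ fun l _ => hi _ (by fun_prop), Finset.sum_div]
    refine Finset.sum_congr rfl fun l _ => ?_
    rw [integral_const_mul]
    ring
  rw [hcov, Matrix.det_mul, Matrix.det_mul, Matrix.det_transpose, affine_volume, hP,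
    LinearMap.det_toMatrix', mul_pow, ← hL, sq_abs]
  have := abs_pos.1 hδ0
  field_simp [hV.ne']

theorem affine_isoConst (A : (Fin n → ℝ) ≃ᵃ[ℝ] (Fin n → ℝ)) {K : Set (Fin n → ℝ)}
    (hK : IsCompact K) (hV : 0 < volume.real K) : isoConst (A '' K) = isoConst K := by
  rw [isoConst, isoConst, affine_ratio A hK hV]

end Vale.P254
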