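import Mathlib
import Vale.Agent.P254.Body
import Vale.Agent.P254.Affine

/-! The isotropic constant of a simplex. -/

namespace Vale.P254

open MeasureTheory Set Matrix

/-- The corner simplex of size `r`. -/
def corner (n : ℕ) (r : ℝ) : Set (Fin n → ℝ) := {x | (∀ i, 0 ≤ x i) ∧ ∑ i, x i ≤ r}

theorem isCompact_corner (n : ℕ) (r : ℝ) : IsCompact (corner n r) := by
  refine (isCompact_univ_pi fun _ : Fin n => isCompact_Icc (a := (0 : ℝ)) (b := r)).of_isClosed_subset
    ?_ fun x hx i _ => ⟨hx.1 i, (Finset.single_le_sum (fun j _ => hx.1 j) (Finset.mem_univ i)).trans hx.2⟩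
  simp only [corner, ofPred_and, ofPred_forall]
  exact (isClosed_iInter fun i => isClosed_le continuous_const (continuous_apply i)).inter
    (isClosed_le (by fun_prop) continuous_const)

theorem sl_corner (n : ℕ) (r t : ℝ) :
    sl (corner (n + 1) r) t = if t ∈ Icc 0 r then corner n (r - t) else ∅ := by
  ext y
  simp only [sl, corner, mem_ofPred_eq, Fin.forall_fin_succ, Fin.cons_zero, Fin.cons_succ,
    Fin.sum_univ_succ]
  split_ifs with ht
  · simp only [mem_ofPred_eq]
    exact ⟨fun h => ⟨h.1.2, by linarith [h.2]⟩, fun h => ⟨⟨ht.1, h.1⟩, by linarith [h.2]⟩⟩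
  · refine ⟨fun h => ht ⟨h.1.1, ?_⟩, fun h => h.elim⟩
    linarith [h.2, Finset.sum_nonneg fun i (_ : i ∈ Finset.univ) => h.1.2 i]

theorem corner_slice (n : ℕ) {r : ℝ} (hr : 0 ≤ r) {f : (Fin (n + 1) → ℝ) → ℝ} (hf : Continuous f)
    {F : ℝ → ℝ} (hF : ∀ t ∈ Icc 0 r, ∫ y in corner n (r - t), f (Fin.cons t y) = F t) :
    ∫ x in corner (n + 1) r, f x = ∫ t in (0 : ℝ)..r, F t := by
  rw [(integral_slice (isCompact_corner _ r) hf).2, intervalIntegral.integral_of_le hr,
    ← integral_Icc_eq_integral_Ioc, ← integral_indicator measurableSet_Icc]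
  refine integral_congr_ae (Filter.Eventually.of_forall fun t => ?_)
  simp only [sl_corner]
  by_cases ht : t ∈ Icc 0 r
  · rw [if_pos ht, indicator_of_mem ht, hF t ht]
  · rw [if_neg ht, indicator_of_notMem ht, setIntegral_empty]

theorem integral_pow_sub (r : ℝ) (p : ℕ) :
    ∫ t in (0 : ℝ)..r, (r - t) ^ p = r ^ (p + 1) / (p + 1) := by
  rw [intervalIntegral.integral_comp_sub_left (fun z => z ^ p) r]
  simp [integral_pow]

/-- The moments of order at most two of a corner simplex. -/
theorem corner_moments : ∀ (n : ℕ) (r : ℝ), 0 ≤ r →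
    volume.real (corner n r) = r ^ n / n.factorial ∧
    (∀ i, ∫ x in corner n r, x i = r ^ (n + 1) / (n + 1).factorial) ∧
    ∀ i j, ∫ x in corner n r, x i * x j
      = (if i = j then 2 else 1) * r ^ (n + 2) / (n + 2).factorial := by
  intro n
  induction n with
  | zero =>
    intro r hr
    have h : corner 0 r = univ := eq_univ_of_forall fun x => ⟨fun i => i.elim0, by simpa using hr⟩
    exact ⟨by simp [h, measureReal_def, volume_pi, Measure.pi_empty_univ],
      fun i => i.elim0, fun i => i.elim0⟩
  | succ n ih =>
    intro r hr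
    have hv : ∀ t ∈ Icc (0 : ℝ) r, ∀ c : ℝ,
        ∫ _y in corner n (r - t), c = c * ((r - t) ^ n / n.factorial) := fun t ht c => by
      rw [setIntegral_const, smul_eq_mul, (ih _ (sub_nonneg.2 ht.2)).1, mul_comm]
    have f1 : ((n + 1).factorial : ℝ) = (n + 1) * n.factorial := by
      rw [Nat.factorial_succ]; push_cast; ring
    have f2 : ((n + 2).factorial : ℝ) = (n + 2) * (n + 1).factorial := by
      rw [Nat.factorial_succ]; push_cast; ring
    have f3 : ((n + 1 + 2).factorial : ℝ) = (n + 3) * (n + 2).factorial := by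
      rw [show n + 1 + 2 = (n + 2) + 1 from rfl, Nat.factorial_succ]; push_cast; ring
    have hn0 : (n.factorial : ℝ) ≠ 0 := by positivity
    have ic : ∀ p : ℕ, IntervalIntegrable (fun t : ℝ => (r - t) ^ p) volume 0 r := fun p =>
      Continuous.intervalIntegrable (by fun_prop) _ _
    -- powers of `t` against powers of `r - t`
    have i1 : ∫ t in (0 : ℝ)..r, t * (r - t) ^ n = r ^ (n + 2) / ((n + 1) * (n + 2)) := by
      rw [show (fun t : ℝ => t * (r - t) ^ n) = fun t => r * (r - t) ^ n - (r - t) ^ (n + 1) by
        funext t; ring, intervalIntegral.integral_sub ((ic n).const_mul r) (ic _),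
        intervalIntegral.integral_const_mul, integral_pow_sub, integral_pow_sub]
      push_cast; field_simp; ring
    have i2 : ∫ t in (0 : ℝ)..r, t ^ 2 * (r - t) ^ n
        = 2 * r ^ (n + 3) / ((n + 1) * (n + 2) * (n + 3)) := by
      rw [show (fun t : ℝ => t ^ 2 * (r - t) ^ n) = fun t =>
          r ^ 2 * (r - t) ^ n - 2 * r * (r - t) ^ (n + 1) + (r - t) ^ (n + 2) by funext t; ring,
        intervalIntegral.integral_add (((ic n).const_mul _).sub ((ic _).const_mul _)) (ic _),
        intervalIntegral.integral_sub ((ic n).const_mul _) ((ic _).const_mul _),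
        intervalIntegral.integral_const_mul, intervalIntegral.integral_const_mul,
        integral_pow_sub, integral_pow_sub, integral_pow_sub]
      push_cast; field_simp; ring
    have i1' : ∫ t in (0 : ℝ)..r, t * (r - t) ^ (n + 1) = r ^ (n + 3) / ((n + 2) * (n + 3)) := by
      rw [show (fun t : ℝ => t * (r - t) ^ (n + 1))
          = fun t => r * (r - t) ^ (n + 1) - (r - t) ^ (n + 2) by
        funext t; ring, intervalIntegral.integral_sub ((ic _).const_mul r) (ic _),
        intervalIntegral.integral_const_mul, integral_pow_sub, integral_pow_sub]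
      push_cast; field_simp; ring
    refine ⟨?_, fun i => ?_, fun i j => ?_⟩
    · have := corner_slice n hr (f := fun _ => 1) continuous_const
        (F := fun t => (r - t) ^ n / n.factorial) fun t ht => by rw [hv t ht]; ring
      rw [setIntegral_const, smul_eq_mul, mul_one, intervalIntegral.integral_div,
        integral_pow_sub] at this
      rw [this, f1]; field_simp
    · refine Fin.cases ?_ (fun a => ?_) i
      · rw [corner_slice n hr (f := fun x => x 0) (by fun_prop)
          (F := fun t => t * (r - t) ^ n / n.factorial) fun t ht => by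
            simp only [Fin.cons_zero]; rw [hv t ht]; ring,
          intervalIntegral.integral_div, i1, f2, f1]
        field_simp
      · rw [corner_slice n hr (f := fun x => x a.succ) (by fun_prop)
          (F := fun t => (r - t) ^ (n + 1) / (n + 1).factorial) fun t ht => by
            simp only [Fin.cons_succ]; exact (ih _ (sub_nonneg.2 ht.2)).2.1 a,
          intervalIntegral.integral_div, integral_pow_sub, f2]
        push_cast; field_simp; ring
    · refine Fin.cases ?_ (fun a => ?_) i <;> refine Fin.cases ?_ (fun b => ?_) j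
      · rw [if_pos rfl, corner_slice n hr (f := fun x => x 0 * x 0) (by fun_prop)
          (F := fun t => t ^ 2 * (r - t) ^ n / n.factorial) fun t ht => by
            simp only [Fin.cons_zero]; rw [hv t ht]; ring,
          intervalIntegral.integral_div, i2, f3, f2, f1]
        field_simp
      · rw [if_neg (Fin.succ_ne_zero b).symm,
          corner_slice n hr (f := fun x => x 0 * x b.succ) (by fun_prop)
          (F := fun t => t * (r - t) ^ (n + 1) / (n + 1).factorial) fun t ht => by
            simp only [Fin.cons_zero, Fin.cons_succ]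
            rw [integral_const_mul, (ih _ (sub_nonneg.2 ht.2)).2.1 b]; ring,
          intervalIntegral.integral_div, i1', f3, f2]
        field_simp
      · rw [if_neg (Fin.succ_ne_zero a),
          corner_slice n hr (f := fun x => x a.succ * x 0) (by fun_prop)
          (F := fun t => t * (r - t) ^ (n + 1) / (n + 1).factorial) fun t ht => by
            simp only [Fin.cons_zero, Fin.cons_succ]
            rw [integral_mul_const, (ih _ (sub_nonneg.2 ht.2)).2.1 a]; ring,
          intervalIntegral.integral_div, i1', f3, f2]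
        field_simp
      · rw [corner_slice n hr (f := fun x => x a.succ * x b.succ) (by fun_prop)
          (F := fun t => (if a = b then 2 else 1) * (r - t) ^ (n + 2) / (n + 2).factorial)
          fun t ht => by
            simp only [Fin.cons_succ]; exact (ih _ (sub_nonneg.2 ht.2)).2.2 a b,
          intervalIntegral.integral_div, intervalIntegral.integral_const_mul, integral_pow_sub, f3]
        simp only [Fin.succ_inj]
        push_cast; field_simp; ring

/-- The ratio of a corner simplex. -/
theorem corner_ratio (n : ℕ) : (covMat (corner n 1)).det / volume.real (corner n 1) ^ 2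
    = (n.factorial : ℝ) ^ 2 / (((n + 1) * (n + 2) : ℝ) ^ n * (n + 1)) := by
  obtain ⟨hV, h1, h2⟩ := corner_moments n 1 zero_le_one
  rw [one_pow] at hV
  have hn0 : (0 : ℝ) < n.factorial := by positivity
  have hi : ∀ g : (Fin n → ℝ) → ℝ, Continuous g → IntegrableOn g (corner n 1) := fun g hg =>
    hg.continuousOn.integrableOn_compact (isCompact_corner n 1)
  have f1 : ((n + 1).factorial : ℝ) = (n + 1) * n.factorial := by
    rw [Nat.factorial_succ]; push_cast; ring
  have f2 : ((n + 2).factorial : ℝ) = (n + 2) * (n + 1).factorial := by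
    rw [Nat.factorial_succ]; push_cast; ring
  have hb : ∀ i, centroid (corner n 1) i = 1 / (n + 1) := fun i => by
    rw [centroid, h1, hV, one_pow, f1]; field_simp
  have hc : covMat (corner n 1) = (((n + 1) * (n + 2) : ℝ)⁻¹) •
      ((1 : Matrix (Fin n) (Fin n) ℝ) + replicateCol Unit (fun _ => -(1 / (n + 1) : ℝ))
        * replicateRow Unit fun _ => (1 : ℝ)) := by
    ext i j
    simp only [covMat, Matrix.of_apply, hb, Matrix.smul_apply, Matrix.add_apply, Matrix.one_apply,
      Matrix.mul_apply, replicateCol_apply, replicateRow_apply, Fintype.sum_unique, smul_eq_mul,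
      mul_one]
    rw [show (fun x : Fin n → ℝ => (x i - 1 / (n + 1)) * (x j - 1 / (n + 1)))
        = fun x : Fin n → ℝ => x i * x j - 1 / (n + 1) * x i - 1 / (n + 1) * x j + 1 / (n + 1) * (1 / (n + 1))
      by funext x; ring,
      integral_add (hi _ (by fun_prop)) (hi _ continuous_const),
      integral_sub (hi _ (by fun_prop)) (hi _ (by fun_prop)),
      integral_sub (hi _ (by fun_prop)) (hi _ (by fun_prop)),
      integral_const_mul, integral_const_mul, h1, h1, h2, setIntegral_const, hV, f2, f1]
    split_ifs <;> simp <;> field_simp <;> ring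
  rw [hc, Matrix.det_smul, Fintype.card_fin, det_one_add_replicateCol_mul_replicateRow, hV]
  simp only [dotProduct, one_mul, Finset.sum_const, Finset.card_univ, Fintype.card_fin,
    nsmul_eq_mul]
  rw [inv_pow]
  field_simp
  ring

/-- A simplex is an affine image of the corner simplex. -/
theorem exists_affineEquiv {n : ℕ} (p : Fin (n + 1) → Fin n → ℝ) (hp : AffineIndependent ℝ p) :
    ∃ A : (Fin n → ℝ) ≃ᵃ[ℝ] (Fin n → ℝ), A '' corner n 1 = convexHull ℝ (Set.range p) := by
  have hli : LinearIndependent ℝ fun i : Fin n => p i.succ - p 0 := by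
    have h := (affineIndependent_iff_linearIndependent_vsub ℝ p 0).1 hp
    exact h.comp (fun i : Fin n => (⟨i.succ, Fin.succ_ne_zero i⟩ : {x // x ≠ (0 : Fin (n + 1))}))
      fun a b hab => Fin.succ_inj.1 (Subtype.ext_iff.1 hab)
  rcases Nat.eq_zero_or_pos n with rfl | hn
  · refine ⟨AffineEquiv.refl ℝ _, ?_⟩
    rw [AffineEquiv.coe_refl, image_id]
    exact Subset.antisymm (fun x _ => subset_convexHull ℝ _ ⟨0, Subsingleton.elim _ _⟩)
      fun x _ => ⟨fun i => i.elim0, by simp⟩
  have : Nonempty (Fin n) := ⟨⟨0, hn⟩⟩
  let B := basisOfLinearIndependentOfCardEqFinrank hli (by simp)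
  let A : (Fin n → ℝ) ≃ᵃ[ℝ] (Fin n → ℝ) :=
    B.equivFun.symm.toAffineEquiv.trans (AffineEquiv.constVAdd ℝ _ (p 0))
  refine ⟨A, ?_⟩
  set q : Fin (n + 1) → Fin n → ℝ := Fin.cases 0 fun i => Pi.single i 1 with hq
  have hAq : ∀ i, A (q i) = p i := by
    intro i
    refine Fin.cases ?_ (fun j => ?_) i
    · simp [A, q]
    · simp [A, q, B, Module.Basis.equivFun_symm_apply]
  have hT : corner n 1 = convexHull ℝ (range q) := by
    refine Subset.antisymm (fun x hx => ?_) (convexHull_min ?_ ?_)
    · have := (convex_convexHull ℝ (range q)).sum_mem (t := Finset.univ)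
        (w := (Fin.cases (1 - ∑ i, x i) x : Fin (n + 1) → ℝ)) (z := q)
        (fun i _ => Fin.cases (by simpa using hx.2) (fun j => by simpa using hx.1 j) i)
        (by simp [Fin.sum_univ_succ]) (fun i _ => subset_convexHull ℝ _ (mem_range_self i))
      convert this using 1
      funext l
      simp [Fin.sum_univ_succ, q, Finset.sum_apply, Pi.single_apply]
    · rintro _ ⟨i, rfl⟩
      refine Fin.cases ⟨fun l => by simp [q], by simp [q]⟩ (fun j => ⟨fun l => ?_, ?_⟩) i
      · simp [q, Pi.single_apply]; split_ifs <;> norm_num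
      · simp [q, Pi.single_apply]
    · intro x hx y hy a b ha hb hab
      refine ⟨fun i => ?_, ?_⟩
      · simp only [Pi.add_apply, Pi.smul_apply, smul_eq_mul]
        exact add_nonneg (mul_nonneg ha (hx.1 i)) (mul_nonneg hb (hy.1 i))
      · simp only [Pi.add_apply, Pi.smul_apply, smul_eq_mul, Finset.sum_add_distrib, ← Finset.mul_sum]
        nlinarith [mul_le_mul_of_nonneg_left hx.2 ha, mul_le_mul_of_nonneg_left hy.2 hb]
  rw [hT, show (A : (Fin n → ℝ) → (Fin n → ℝ)) = A.toAffineMap from rfl,
    AffineMap.image_convexHull, ← range_comp]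
  congr 1
  exact congrArg range (funext hAq)

/-- The isotropic constant of a simplex. -/
theorem simplex_isoConst {n : ℕ} (p : Fin (n + 1) → Fin n → ℝ) (hp : AffineIndependent ℝ p) :
    isoConst (convexHull ℝ (Set.range p))
      = ((n.factorial : ℝ) ^ 2 / (((n + 1) * (n + 2) : ℝ) ^ n * (n + 1))) ^ (1 / (2 * (n : ℝ))) := by
  obtain ⟨A, hA⟩ := exists_affineEquiv p hp
  have hV : 0 < volume.real (corner n 1) := by
    rw [(corner_moments n 1 zero_le_one).1, one_pow]; positivity
  rw [← hA, affine_isoConst A (isCompact_corner n 1) hV, isoConst, corner_ratio]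

end Vale.P254
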