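import Mathlib
import Vale.Agent.P254.Body
import Vale.Agent.P254.Simplex

/-! Products of symmetric bodies, and the comparison with the simplex. -/

namespace Vale.P254

open MeasureTheory Set Matrix

variable {n : ℕ}

/-- An integral of a function of one block over a product of bodies. -/
theorem integral_block {m : ℕ} {k : Fin m → ℕ} (B : ∀ b, Set (Fin (k b) → ℝ))
    (b : Fin m) (g : (Fin (k b) → ℝ) → ℝ) (hg : Measurable g) :
    ∫ z in Set.univ.pi B, g (z b) =
      (∏ c ∈ Finset.univ.erase b, volume.real (B c)) * ∫ y in B b, g y := by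
  rw [volume_pi, Measure.restrict_pi_pi,
    ← integral_map (μ := Measure.pi fun c => volume.restrict (B c))
      (measurable_pi_apply b).aemeasurable hg.aestronglyMeasurable,
    show (fun z : ∀ c, Fin (k c) → ℝ => z b) = Function.eval b from rfl,
    Measure.pi_map_eval, integral_smul_measure, ENNReal.toReal_prod, smul_eq_mul]
  simp only [Measure.restrict_apply_univ, measureReal_def]

/-- Measurable coordinates of a decomposition of `Fin n` into blocks. -/
theorem measurePreserving_blocks {m : ℕ} {k : Fin m → ℕ} (e : (Σ b, Fin (k b)) ≃ Fin n) :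
    MeasurePreserving (fun (x : Fin n → ℝ) (b : Fin m) (l : Fin (k b)) => x (e ⟨b, l⟩))
      volume volume := by
  have hm : Measurable fun (x : Fin n → ℝ) (b : Fin m) (l : Fin (k b)) => x (e ⟨b, l⟩) := by
    fun_prop
  have hψ : Measurable fun (z : ∀ b, Fin (k b) → ℝ) (i : Fin n) => z (e.symm i).1 (e.symm i).2 := by
    fun_prop
  let Ψ : (∀ b, Fin (k b) → ℝ) ≃ᵐ (Fin n → ℝ) :=
    { toFun := fun z i => z (e.symm i).1 (e.symm i).2
      invFun := fun x b l => x (e ⟨b, l⟩)
      left_inv := fun z => by
        funext b l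
        show z (e.symm (e ⟨b, l⟩)).1 (e.symm (e ⟨b, l⟩)).2 = _
        rw [Equiv.symm_apply_apply]
      right_inv := fun x => by funext i; simp
      measurable_toFun := hψ
      measurable_invFun := hm }
  have hΨ : MeasurePreserving Ψ volume volume := by
    refine ⟨Ψ.measurable, ?_⟩
    rw [volume_pi (α := fun _ : Fin n => ℝ)]
    refine (Measure.pi_eq fun s hs => ?_).symm
    rw [Measure.map_apply Ψ.measurable (MeasurableSet.univ_pi hs)]
    have hpre : Ψ ⁻¹' Set.univ.pi s
        = Set.univ.pi fun b => Set.univ.pi fun l => s (e ⟨b, l⟩) := by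
      ext z
      simp only [mem_preimage, Set.mem_univ_pi]
      refine ⟨fun h b l => ?_, fun h i => ?_⟩
      · have := h (e ⟨b, l⟩)
        change z (e.symm (e ⟨b, l⟩)).1 (e.symm (e ⟨b, l⟩)).2 ∈ s _ at this
        rwa [Equiv.symm_apply_apply] at this
      · have := h (e.symm i).1 (e.symm i).2
        rwa [Sigma.eta, Equiv.apply_symm_apply] at this
    rw [hpre, volume_pi_pi, ← e.prod_comp, Fintype.prod_sigma]
    exact Finset.prod_congr rfl fun b _ => volume_pi_pi _
  exact hΨ.symm Ψ

/-- The factorial comparison. -/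
theorem pow_lt_factorial : ∀ n : ℕ, 2 ≤ n →
    ((n : ℝ) + 1) ^ (2 * n + 1) < 8 ^ n * (n.factorial : ℝ) ^ 2 := by
  intro n hn
  induction n, hn using Nat.le_induction with
  | base => norm_num
  | succ n hn ih =>
    set z : ℝ := (n + 2) / (n + 1) with hz
    have hn' : (2 : ℝ) ≤ n := by exact_mod_cast hn
    have hz1 : 1 ≤ z := by rw [hz, le_div_iff₀ (by positivity)]; linarith
    have hlog : Real.log z ≤ (z - z⁻¹) / 2 := by
      rw [← Real.sinh_log (by linarith)]
      exact Real.self_le_sinh_iff.2 (Real.log_nonneg hz1)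
    have h2 : ((2 * n + 3 : ℕ) : ℝ) * Real.log z ≤ 2 + 1 / 20 := by
      refine (mul_le_mul_of_nonneg_left hlog (by positivity)).trans ?_
      rw [hz, inv_div]
      push_cast
      rw [div_sub_div _ _ (by positivity) (by positivity), div_div, ← mul_div_assoc,
        div_le_iff₀ (by positivity)]
      nlinarith
    have hpow : z ^ (2 * n + 3) ≤ 8 := by
      have hz0 : 0 < z := by linarith
      rw [← Real.exp_log (pow_pos hz0 _), Real.log_pow]
      refine (Real.exp_le_exp.2 h2).trans ?_
      rw [show (2 : ℝ) + 1 / 20 = 1 + 1 + 1 / 20 by norm_num, Real.exp_add, Real.exp_add]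
      have h1 := Real.exp_one_lt_d9
      have h3 : Real.exp (1 / 20) ≤ 20 / 19 := by
        have := Real.exp_bound_div_one_sub_of_interval (x := (1 / 20 : ℝ)) (by norm_num) (by norm_num)
        norm_num at this ⊢
        linarith
      have h0 := Real.exp_pos (1 : ℝ)
      nlinarith [mul_le_mul (mul_le_mul h1.le h1.le h0.le (by norm_num)) h3 (Real.exp_pos _).le
        (by norm_num)]
    have e : ((n : ℝ) + 2) ^ (2 * n + 3) = ((n + 1) ^ (2 * n + 3)) * z ^ (2 * n + 3) := by
      rw [← mul_pow, hz, mul_div_cancel₀ _ (by positivity)]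
    rw [Nat.factorial_succ]
    push_cast
    rw [show 2 * (n + 1) + 1 = 2 * n + 3 by ring, show (n : ℝ) + 1 + 1 = n + 2 by ring, e]
    calc ((n : ℝ) + 1) ^ (2 * n + 3) * z ^ (2 * n + 3)
        ≤ ((n : ℝ) + 1) ^ (2 * n + 3) * 8 := mul_le_mul_of_nonneg_left hpow (by positivity)
      _ = ((n : ℝ) + 1) ^ 2 * 8 * ((n : ℝ) + 1) ^ (2 * n + 1) := by ring
      _ < ((n : ℝ) + 1) ^ 2 * 8 * (8 ^ n * (n.factorial : ℝ) ^ 2) :=
          mul_lt_mul_of_pos_left ih (by positivity)
      _ = _ := by ring

/-- The bound is below the ratio of a simplex. -/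
theorem bound_lt_simplex {n : ℕ} (hn : 2 ≤ n) :
    (((n : ℝ) + 1) / (8 * (n + 2))) ^ n
      < (n.factorial : ℝ) ^ 2 / (((n + 1) * (n + 2) : ℝ) ^ n * (n + 1)) := by
  rw [div_pow, div_lt_div_iff₀ (by positivity) (by positivity), mul_pow, mul_pow]
  calc ((n : ℝ) + 1) ^ n * (((n : ℝ) + 1) ^ n * ((n : ℝ) + 2) ^ n * (n + 1))
      = ((n : ℝ) + 1) ^ (2 * n + 1) * ((n : ℝ) + 2) ^ n := by ring
    _ < 8 ^ n * (n.factorial : ℝ) ^ 2 * ((n : ℝ) + 2) ^ n :=
        mul_lt_mul_of_pos_right (pow_lt_factorial n hn) (by positivity)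
    _ = _ := by ring

/-- A product, in some order of the coordinates, of convex bodies each of which is invariant
under sign changes and permutations of its coordinates. -/
def IsSymmetricProduct {n : ℕ} (K : Set (Fin n → ℝ)) : Prop :=
  ∃ (m : ℕ) (k : Fin m → ℕ) (e : (Σ b, Fin (k b)) ≃ Fin n) (B : ∀ b, Set (Fin (k b) → ℝ)),
    (∀ b, SymBody (B b)) ∧ K = {x | ∀ b, (fun l => x (e ⟨b, l⟩)) ∈ B b}

/-- The ratio bound for a symmetric product. -/
theorem product_ratio_le {n : ℕ} {K : Set (Fin n → ℝ)} (hK : IsSymmetricProduct K)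
    (hV : 0 < volume.real K) :
    IsCompact K ∧ 0 ≤ (covMat K).det / volume.real K ^ 2 ∧
      (covMat K).det / volume.real K ^ 2 ≤ (((n : ℝ) + 1) / (8 * (n + 2))) ^ n := by
  obtain ⟨m, k, e, B, hB, hKdef⟩ := hK
  have hΦ := measurePreserving_blocks e
  set Φ := fun (x : Fin n → ℝ) (b : Fin m) (l : Fin (k b)) => x (e ⟨b, l⟩) with hΦdef
  have hpre : Φ ⁻¹' Set.univ.pi B = K := by
    ext x; simp [hKdef, Φ]
  have hKc : IsCompact K := by
    have hc : Continuous fun (z : ∀ b, Fin (k b) → ℝ) (i : Fin n) => z (e.symm i).1 (e.symm i).2 := by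
      fun_prop
    have : (fun (z : ∀ b, Fin (k b) → ℝ) (i : Fin n) => z (e.symm i).1 (e.symm i).2) ''
        Set.univ.pi B = K := by
      ext x
      constructor
      · rintro ⟨z, hz, rfl⟩
        rw [← hpre]
        intro b hb
        have hfun : Φ (fun i => z (e.symm i).1 (e.symm i).2) b = z b := by
          funext l
          show z (e.symm (e ⟨b, l⟩)).1 (e.symm (e ⟨b, l⟩)).2 = _
          rw [Equiv.symm_apply_apply]
        rw [hfun]; exact hz b hb
      · intro hx
        rw [← hpre] at hx
        exact ⟨Φ x, hx, funext fun i => by simp [Φ]⟩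
    rw [← this]
    exact (isCompact_univ_pi fun b => (hB b).compact).image hc
  have hmeas : MeasurableSet (Set.univ.pi B) :=
    MeasurableSet.univ_pi fun b => (hB b).compact.measurableSet
  have hint : ∀ (b : Fin m) (g : (Fin (k b) → ℝ) → ℝ), Measurable g →
      ∫ x in K, g (fun l => x (e ⟨b, l⟩))
        = (∏ c ∈ Finset.univ.erase b, volume.real (B c)) * ∫ y in B b, g y := by
    intro b g hg
    have hgb : AEStronglyMeasurable (fun z : ∀ b, Fin (k b) → ℝ => g (z b))
        (Measure.map Φ volume) := (hg.comp (measurable_pi_apply b)).aestronglyMeasurable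
    rw [← integral_block B b g hg, ← hpre]
    conv_rhs => rw [← hΦ.map_eq, setIntegral_map hmeas hgb hΦ.measurable.aemeasurable]
  have hVol : volume.real K = ∏ b, volume.real (B b) := by
    rw [← hpre, measureReal_def, hΦ.measure_preimage hmeas.nullMeasurableSet, volume_pi_pi,
      ENNReal.toReal_prod]
    rfl
  have hVb : ∀ b, 0 < volume.real (B b) := fun b => by
    refine lt_of_le_of_ne measureReal_nonneg fun h => ?_
    rw [hVol, Finset.prod_eq_zero (Finset.mem_univ b) h.symm] at hV
    exact lt_irrefl _ hV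
  have hflip : ∀ i : Fin n, ∀ x ∈ K, Function.update x i (-x i) ∈ K := by
    intro i x hx
    rw [hKdef] at hx ⊢
    intro b
    obtain ⟨⟨b', l'⟩, rfl⟩ := e.surjective i
    by_cases hb : b = b'
    · subst hb
      have := (hB b).flip l' _ (hx b)
      convert this using 1
      funext l
      simp [Function.update_apply]
    · convert hx b using 1
      funext l
      simp [hb]
  have hodd : ∀ (i : Fin n) (g : (Fin n → ℝ) → ℝ),
      (∀ x, g (Function.update x i (-x i)) = -g x) → ∫ x in K, g x = 0 := by
    intro i g hg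
    set T := fun (x : Fin n → ℝ) (j : Fin n) => if j = i then -x j else x j with hT
    have hTm : MeasurePreserving T volume volume := by
      refine volume_preserving_pi (f := fun j t => if j = i then -t else t) fun j => ?_
      by_cases hj : j = i
      · simp only [hj, if_true]; exact Measure.measurePreserving_neg volume
      · simp only [hj, if_false]; exact MeasurePreserving.id volume
    have hTu : ∀ x, T x = Function.update x i (-x i) := fun x => by
      funext j; by_cases hj : j = i <;> simp [hT, hj]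
    have hinv : Function.Involutive T := fun x => by
      funext j; by_cases hj : j = i <;> simp [hT, hj]
    let Te : (Fin n → ℝ) ≃ᵐ (Fin n → ℝ) :=
      ⟨hinv.toPerm T, hTm.measurable, hTm.measurable⟩
    have hTK : T ⁻¹' K = K := by
      ext x
      rw [mem_preimage]
      refine ⟨fun hx => ?_, fun hx => by rw [hTu]; exact hflip i x hx⟩
      have := hflip i _ hx
      rwa [← hTu, hinv x] at this
    have h := hTm.setIntegral_preimage_emb Te.measurableEmbedding g K
    rw [hTK] at h
    simp only [hTu, hg, integral_neg] at h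
    linarith
  have hcen : ∀ i, centroid K i = 0 := fun i => by
    rw [centroid, hodd i _ fun x => by simp, zero_div]
  set q : Fin n → ℝ := fun i => (∫ x in K, x i ^ 2) / volume.real K with hq
  have hcov : covMat K = Matrix.diagonal q := by
    ext i j
    simp only [covMat, Matrix.of_apply, hcen, sub_zero]
    rcases eq_or_ne i j with rfl | hij
    · simp [q, sq]
    · rw [Matrix.diagonal_apply_ne _ hij, hodd i _ fun x => by simp [hij.symm], zero_div]
  have hq0 : ∀ i, 0 ≤ q i := fun i => div_nonneg
    (setIntegral_nonneg hKc.measurableSet fun x _ => sq_nonneg _) measureReal_nonneg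
  refine ⟨hKc, ?_, ?_⟩
  · rw [hcov, Matrix.det_diagonal]
    exact div_nonneg (Finset.prod_nonneg fun i _ => hq0 i) (sq_nonneg _)
  rw [hcov, Matrix.det_diagonal, div_le_iff₀ (pow_pos hV 2), ← e.prod_comp, Fintype.prod_sigma, hVol,
    ← Finset.prod_pow]
  have hcard : ∑ b, k b = n := by
    have := Fintype.card_congr e
    simpa using this
  have hpow : (((n : ℝ) + 1) / (8 * (n + 2))) ^ n
      = ∏ b, (((n : ℝ) + 1) / (8 * (n + 2))) ^ k b := by
    rw [Finset.prod_pow_eq_pow_sum, hcard]
  rw [hpow, ← Finset.prod_mul_distrib]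
  refine Finset.prod_le_prod (fun b _ => Finset.prod_nonneg fun l _ => hq0 _) fun b _ => ?_
  rcases Nat.eq_zero_or_pos (k b) with h0 | hpos
  · have hB1 : volume.real (B b) = 1 := by
      have hne : (B b).Nonempty := by
        rw [Set.nonempty_iff_ne_empty]; rintro he; have := hVb b; rw [he] at this; simp at this
      have hs : Subsingleton (Fin (k b) → ℝ) := by
        have : IsEmpty (Fin (k b)) := by rw [h0]; infer_instance
        infer_instance
      have hu : B b = Set.univ := Set.eq_univ_of_forall fun y => by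
        obtain ⟨z, hz⟩ := hne; rwa [Subsingleton.elim y z]
      have : IsEmpty (Fin (k b)) := by rw [h0]; infer_instance
      simp [hu, measureReal_def, volume_pi, Measure.pi_empty_univ]
    have : IsEmpty (Fin (k b)) := by rw [h0]; infer_instance
    simp [h0, hB1]
  · have hl : ∀ l, q (e ⟨b, l⟩) = (∫ y in B b, y l ^ 2) / volume.real (B b) := fun l => by
      rw [hq]
      simp only
      rw [hint b (fun y => y l ^ 2) (by fun_prop), hVol,
        ← Finset.mul_prod_erase _ _ (Finset.mem_univ b)]
      have h1 : (0 : ℝ) < ∏ c ∈ Finset.univ.erase b, volume.real (B c) :=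
        Finset.prod_pos fun c _ => hVb c
      field_simp
    have heq : ∀ l, q (e ⟨b, l⟩) = q (e ⟨b, ⟨0, hpos⟩⟩) := fun l => by
      rw [hl, hl, (hB b).integral_coord (fun z => z ^ 2) l ⟨0, hpos⟩]
    rw [Finset.prod_congr rfl fun l _ => heq l, Finset.prod_const, Finset.card_univ,
      Fintype.card_fin, hl]
    refine ((hB b).second_moment_le ⟨0, hpos⟩ (hVb b)).trans
      (mul_le_mul_of_nonneg_right (pow_le_pow_left₀ (by positivity) ?_ _) (sq_nonneg _))
    have hkn : (k b : ℝ) ≤ n := by
      exact_mod_cast hcard ▸ Finset.single_le_sum (fun c _ => Nat.zero_le (k c)) (Finset.mem_univ b)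
    rw [div_le_div_iff₀ (by positivity) (by positivity)]
    nlinarith

/-- Affine images of symmetric products lie strictly below every simplex. -/
theorem isoConst_lt_simplex {n : ℕ} (hn : 2 ≤ n) {K₀ : Set (Fin n → ℝ)}
    (hK : IsSymmetricProduct K₀) (hint : (interior K₀).Nonempty)
    (A : (Fin n → ℝ) ≃ᵃ[ℝ] (Fin n → ℝ)) (p : Fin (n + 1) → Fin n → ℝ)
    (hp : AffineIndependent ℝ p) :
    isoConst (A '' K₀) < isoConst (convexHull ℝ (Set.range p)) := by
  have hc : IsCompact K₀ := by
    obtain ⟨m, k, e, B, hB, rfl⟩ := hK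
    have hs : {x : Fin n → ℝ | ∀ b, (fun l => x (e ⟨b, l⟩)) ∈ B b}
        ⊆ (fun (z : ∀ b, Fin (k b) → ℝ) (i : Fin n) => z (e.symm i).1 (e.symm i).2) ''
          Set.univ.pi B := fun x hx => ⟨fun b l => x (e ⟨b, l⟩), fun b _ => hx b, by
            funext i; simp⟩
    refine ((isCompact_univ_pi fun b => (hB b).compact).image (by fun_prop)).of_isClosed_subset
      ?_ hs
    simp only [Set.ofPred_forall]
    exact isClosed_iInter fun b => (hB b).compact.isClosed.preimage (by fun_prop)
  have hV : 0 < volume.real K₀ :=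
    ENNReal.toReal_pos (Measure.measure_pos_of_nonempty_interior _ hint).ne' hc.measure_lt_top.ne
  obtain ⟨-, h0, hle⟩ := product_ratio_le hK hV
  rw [affine_isoConst A hc hV, simplex_isoConst p hp, isoConst]
  exact Real.rpow_lt_rpow h0 (hle.trans_lt (bound_lt_simplex hn)) (by positivity)

end Vale.P254
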